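import Vale.Agent.P040.Bp.Machine

/-!
# The static end for both parts odd

Integer potentials `N b z` (four times the real ones) with half periods `t z`, such that the sum of
the distances of two stars from being antipodal is at most four times their number of crossings
(plus `e` if they are on the same side). If `∑ t + e` is odd, the parity of `∑ N b z` is a colouring
which gives one more.
-/

set_option autoImplicit false

namespace Vale.Agent.P040.Odd

open Finset Bp

section

variable {n : ℕ} {Z : Type*} [Fintype Z]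

/-- the parity colouring -/
def dl (e : ℕ) (N : Fin n → Z → ℤ) (s : Fin n → Bool) (b : Fin n) : Bool :=
  xor (decide (Even (∑ z, N b z))) (if e = 1 then s b else false)

theorem even_abs_sum (f : Z → ℤ) : Even (∑ z, |f z|) ↔ Even (∑ z, f z) := by
  have h : Even (∑ z, (|f z| - f z)) := by
    apply Finset.even_sum
    intro z _
    rcases abs_choice (f z) with h | h <;> rw [h]
    · simp
    · exact ⟨-f z, by ring⟩
  rw [Finset.sum_sub_distrib, Int.even_sub] at h
  exact h

/-- **The gain by parity.** -/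
theorem parity_gain (t : Z → ℕ) {e : ℕ} (he : e = 0 ∨ e = 1) (ht : Odd (∑ z, t z + e))
    (N : Fin n → Z → ℤ) (s : Fin n → Bool) {c : ℤ} {b k : Fin n} {q : Z → ℤ}
    (h : ∑ z, |N b z - N k z - t z - 2 * t z * q z| ≤ 4 * c + (if s b = s k then e else 0 : ℕ)) :
    ∑ z, |N b z - N k z - t z - 2 * t z * q z| + (if dl e N s b = dl e N s k then 1 else 0) ≤
      4 * c + (if s b = s k then e else 0 : ℕ) := by
  by_cases hd : dl e N s b = dl e N s k
  swap
  · rw [if_neg hd, add_zero]; exact h
  rw [if_pos hd]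
  -- the two sides have different parities
  have h1 : Even (∑ z, |N b z - N k z - t z - 2 * t z * q z|) ↔
      (Even (∑ z, N b z) ↔ (Even (∑ z, N k z) ↔ Even (∑ z, t z))) := by
    rw [even_abs_sum]
    have : ∑ z, (N b z - N k z - (t z : ℤ) - 2 * t z * q z) =
        ∑ z, N b z - ∑ z, N k z - ((∑ z, t z : ℕ) : ℤ) - 2 * ∑ z, t z * q z := by
      rw [Finset.sum_sub_distrib, Finset.sum_sub_distrib, Finset.sum_sub_distrib,
        Finset.mul_sum]
      push_cast
      congr 1
      exact Finset.sum_congr rfl fun z _ => by ring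
    rw [this, Int.even_sub, Int.even_sub, Int.even_sub, Int.even_coe_nat]
    have h2 : Even (2 * ∑ z, (t z : ℤ) * q z) := even_two_mul _
    tauto
  have hne : ∑ z, |N b z - N k z - t z - 2 * t z * q z| ≠
      4 * c + ((if s b = s k then e else 0 : ℕ) : ℤ) := by
    intro h0
    rw [h0, Int.even_add] at h1
    have h3 : Even (4 * c) := ⟨2 * c, by ring⟩
    rw [Int.even_coe_nat] at h1
    unfold dl at hd
    rcases he with rfl | rfl
    · rw [add_zero, ← Nat.not_even_iff_odd] at ht
      simp only [ite_self, zero_ne_one, if_false, Bool.xor_false, decide_eq_decide] at h1 hd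
      have h4 : Even 0 := Even.zero
      tauto
    · have ht' : Even (∑ z, t z) := by
        rw [← Nat.not_even_iff_odd, Nat.even_add_one] at ht
        tauto
      simp only [if_true] at hd
      cases hb : s b <;> cases hk : s k <;> rw [hb, hk] at h1 hd <;>
        by_cases e1 : Even (∑ z, N b z) <;> by_cases e2 : Even (∑ z, N k z) <;>
        simp [e1, e2, ht', h3] at h1 hd
  exact Int.add_one_le_iff.2 (lt_of_le_of_ne h hne)

/-- **The static end, both odd.** -/
theorem static (t : Z → ℕ) {e : ℕ} (he : e = 0 ∨ e = 1) (ht : Odd (∑ z, t z + e))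
    (N : Fin n → Z → ℤ) (s : Fin n → Bool) (c : Fin n → Fin n → ℕ)
    (h : ∀ b k, b < k → ∃ q : Z → ℤ, ∑ z, |N b z - N k z - t z - 2 * t z * q z| ≤
      4 * (c b k : ℤ) + (if s b = s k then e else 0 : ℕ)) :
    (∑ z, t z + 1) * ((n / 2) * ((n - 1) / 2)) ≤
      4 * ∑ p ∈ Even.prs n, c p.1 p.2 + e * (Even.mono s).card := by
  classical
  have h1 := Even.thr (n := n) (Z := Z) (fun _ => 1) (fun z => (t z : ℝ))
    (fun z b => (N b z : ℝ)) (fun b k => 4 * (c b k : ℝ) + ((if s b = s k then e else 0 : ℕ) : ℝ) -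
      (if dl e N s b = dl e N s k then 1 else 0)) (fun _ => zero_le_one)
    (fun _ => Nat.cast_nonneg _) (by
      intro b k hbk
      obtain ⟨q, hq⟩ := h b k hbk
      refine ⟨q, ?_⟩
      have h2 := parity_gain t he ht N s hq
      have h3 : ((∑ z, |N b z - N k z - t z - 2 * t z * q z| +
        (if dl e N s b = dl e N s k then 1 else 0) : ℤ) : ℝ) ≤
          ((4 * (c b k : ℤ) + ((if s b = s k then e else 0 : ℕ) : ℤ) : ℤ) : ℝ) := by
        exact_mod_cast h2
      push_cast at h3 ⊢
      simp only [one_mul]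
      have h4 : (if dl e N s b = dl e N s k then (1:ℝ) else 0) =
        ((if dl e N s b = dl e N s k then 1 else 0 : ℤ) : ℝ) := by split_ifs <;> simp
      split_ifs at h3 ⊢ <;> linarith)
  rw [Finset.sum_sub_distrib, Finset.sum_add_distrib] at h1
  have h2 : ∑ p ∈ Even.prs n, (if dl e N s p.1 = dl e N s p.2 then (1:ℝ) else 0) =
      ((Even.mono (dl e N s)).card : ℝ) := by
    rw [Finset.sum_ite, Finset.sum_const_zero, add_zero, Finset.sum_const, nsmul_eq_mul, mul_one]
    rfl
  have h3 : ∑ p ∈ Even.prs n, ((if s p.1 = s p.2 then e else 0 : ℕ) : ℝ) =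
      (e : ℝ) * ((Even.mono s).card : ℝ) := by
    have : ∀ p : Fin n × Fin n, ((if s p.1 = s p.2 then e else 0 : ℕ) : ℝ) =
        if s p.1 = s p.2 then (e : ℝ) else 0 := fun p => by split_ifs <;> simp
    simp_rw [this]
    rw [Finset.sum_ite, Finset.sum_const_zero, add_zero, Finset.sum_const, nsmul_eq_mul, mul_comm]
    rfl
  rw [h2, h3] at h1
  have h4 : (((n / 2) * ((n - 1) / 2) : ℕ) : ℝ) ≤ ((Even.mono (dl e N s)).card : ℝ) := by
    exact_mod_cast Even.mono_ge _
  have h5 : (((∑ z, t z + 1) * ((n / 2) * ((n - 1) / 2)) : ℕ) : ℝ) ≤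
      ((4 * ∑ p ∈ Even.prs n, c p.1 p.2 + e * (Even.mono s).card : ℕ) : ℝ) := by
    simp only [one_mul] at h1
    rw [← Finset.mul_sum] at h1
    push_cast at h1 h4 ⊢
    linarith
  exact_mod_cast h5

end

/-- The sum over the pairs of centres. -/
theorem total_eq {m n : ℕ} (A : Topo.ArcDiagram m n) :
    ∑ p ∈ Even.prs n, A.cr p.1 p.2 = A.total := by
  classical
  unfold Topo.ArcDiagram.total
  rw [Finset.sum_sigma']
  refine Finset.sum_bij' (fun p _ => ⟨p.1, p.2⟩) (fun p _ => (p.1, p.2)) ?_ ?_ ?_ ?_ ?_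
  · intro p hp
    simpa [Even.prs] using hp
  · intro p hp
    simpa [Even.prs] using hp
  · intro p _; rfl
  · intro p _; rfl
  · intro p _; rfl

/-- **The machine for odd `m = 2h + 1`**, unframed form: integer potentials `N b z` with half
period `2h - 1` for every leaf. -/
def OddMachine : Prop :=
  ∀ h : ℕ, 1 ≤ h → ∀ leaf : Fin (2 * h + 1) → ℝ, Function.Injective leaf →
    ∃ N : SStar leaf → Fin (2 * h + 1) → ℤ, ∀ b k : SStar leaf, b.GP k →
      ∃ q : Fin (2 * h + 1) → ℤ,
        ∑ z, |N b z - N k z - (2 * h - 1) - 2 * (2 * h - 1) * q z| ≤ 4 * (b.cr k : ℤ)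

/-- the lower bound for arc diagrams -/
theorem zar_le_total (M : OddMachine) {h n : ℕ} (hh : 1 ≤ h) (A : Topo.ArcDiagram (2 * h + 1) n) :
    zar (2 * h + 1) n ≤ A.total := by
  classical
  obtain ⟨N, hN⟩ := M h hh A.leaf A.leaf_inj
  have h1 := static (n := n) (Z := Fin (2 * h + 1)) (fun _ => 2 * h - 1) (e := 0) (Or.inl rfl)
    (by
      rw [Finset.sum_const, card_univ, Fintype.card_fin, smul_eq_mul, add_zero]
      exact Odd.mul ⟨h, rfl⟩ ⟨h - 1, by omega⟩)
    (fun b => N (star A b)) (fun _ => true) (fun b k => A.cr b k) (by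
      intro b k hbk
      obtain ⟨q, hq⟩ := hN (star A b) (star A k) (star_gp A hbk.ne)
      refine ⟨q, ?_⟩
      have : (((2 * h - 1 : ℕ) : ℤ)) = 2 * h - 1 := by omega
      simp only [this, ite_self, Nat.cast_zero, add_zero]
      exact hq)
  rw [Finset.sum_const, card_univ, Fintype.card_fin, smul_eq_mul, zero_mul, add_zero,
    total_eq] at h1
  have h2 : (2 * h + 1) * (2 * h - 1) + 1 = 4 * (h * h) := by
    obtain ⟨j, rfl⟩ : ∃ j, h = j + 1 := ⟨h - 1, by omega⟩
    rw [show 2 * (j + 1) - 1 = 2 * j + 1 by omega]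
    ring
  rw [h2, mul_assoc] at h1
  have h3 := Nat.le_of_mul_le_mul_left h1 (by norm_num)
  unfold zar
  rw [show (2 * h + 1) / 2 = h by omega, show (2 * h + 1 - 1) / 2 = h by omega]
  exact h3

/-- The framed form, for one arc diagram: at the leaf `w` the half period is `2h`, and pairs of stars
on the same side of the framing may have one more; the framing halves the stars. -/
theorem zar_le_total_framed {h n : ℕ} (hh : 1 ≤ h) (A : Topo.ArcDiagram (2 * h + 1) n)
    (w : Fin (2 * h + 1)) (N : Fin n → Fin (2 * h + 1) → ℤ) (s : Fin n → Bool)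
    (hs : (Even.mono s).card ≤ (n / 2) * ((n - 1) / 2))
    (hN : ∀ b k, b < k → ∃ q : Fin (2 * h + 1) → ℤ,
      ∑ z, |N b z - N k z - ((if z = w then 2 * h else 2 * h - 1 : ℕ) : ℤ) -
        2 * ((if z = w then 2 * h else 2 * h - 1 : ℕ) : ℤ) * q z| ≤
        4 * (A.cr b k : ℤ) + (if s b = s k then 1 else 0 : ℕ)) :
    zar (2 * h + 1) n ≤ A.total := by
  classical
  have hsum : ∑ z, (if z = w then 2 * h else 2 * h - 1) = 4 * (h * h) := by
    have h0 : ∀ z, (if z = w then 2 * h else 2 * h - 1) =
        (2 * h - 1) + (if z = w then 1 else 0) := fun z => by split_ifs <;> omega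
    simp_rw [h0]
    rw [Finset.sum_add_distrib, Finset.sum_const, card_univ, Fintype.card_fin, smul_eq_mul,
      Finset.sum_ite_eq' univ w, if_pos (mem_univ _)]
    obtain ⟨j, rfl⟩ : ∃ j, h = j + 1 := ⟨h - 1, by omega⟩
    rw [show 2 * (j + 1) - 1 = 2 * j + 1 by omega]
    ring
  have h1 := static (n := n) (Z := Fin (2 * h + 1)) (fun z => if z = w then 2 * h else 2 * h - 1)
    (e := 1) (Or.inr rfl) (by rw [hsum]; exact ⟨2 * (h * h), by ring⟩)
    N s (fun b k => A.cr b k) hN
  rw [hsum, total_eq, one_mul] at h1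
  have h3 : h * h * (n / 2 * ((n - 1) / 2)) ≤ A.total := by nlinarith
  unfold zar
  rw [show (2 * h + 1) / 2 = h by omega, show (2 * h + 1 - 1) / 2 = h by omega]
  convert h3 using 1

/-- `OddMachine` implies Zarankiewicz's conjecture for odd `m` and all `n`. -/
theorem odd_of_machine (M : OddMachine) {m n : ℕ} (hm : Odd m) (D : Drawing (K m n)) :
    zar m n ≤ D.crossings := by
  obtain ⟨h, rfl⟩ := hm
  rcases Nat.eq_zero_or_pos h with hh | hh
  · subst hh
    unfold zar
    simp
  rcases Nat.eq_zero_or_pos n with hn | hn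
  · subst hn
    unfold zar
    simp
  obtain ⟨A, hA⟩ := Topo.exists_arcDiagram (by omega : 0 < 2 * h + 1) hn D
  exact (zar_le_total M hh A).trans hA

/-- Zarankiewicz's conjecture: every drawing of `K_{m,n}` has at least `zar m n` crossings. -/
def AllMN : Prop := ∀ m n : ℕ, ∀ D : Drawing (K m n), zar m n ≤ D.crossings

theorem all_of (hE : Even.EvenB) (M : OddMachine) : AllMN := by
  intro m n D
  rcases Nat.even_or_odd m with hm | hm
  · exact hE m n hm D
  · exact odd_of_machine M hm D

end Vale.Agent.P040.Odd
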