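import Vale.Agent.P040.H45.Rel

/-!
# The crossing words of the arms of a star with another star

`k` and `b` are two stars in general position. The word `A b k x` of the arm `x` of `k` with
respect to `b`. The product of the loops `A x A⁻¹` in the rotation order of `k` is conjugate to the
product of the letters in the reversed rotation order of `b`.
-/

set_option autoImplicit false

namespace Vale.Agent.P040.H45W

open Topo Bp H177 W

variable {m : ℕ} {leaf : Fin m → ℝ}

/-! ### Near copies -/

theorem near_sh {P : Set ℝ} {ε : ℝ} (h : Eps P ε) {q : ℝ} (hq : q ∈ P) (s : Bool) :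
    H45.Near P (q + sh ε s) q := by
  refine ⟨sh_notMem h hq s, fun z hz hne => ?_⟩
  cases s
  · simp only [sh, Bool.false_eq_true, if_false, ← sub_eq_add_neg]
    exact h.lt_sub hq hz
  · simp only [sh, if_true]
    rw [h.lt_add hq hz]
    exact ⟨fun h1 => lt_of_le_of_ne h1 hne, fun h1 => h1.le⟩

theorem H_sh {b : SStar leaf} {P : Set ℝ} {ε : ℝ} (h : Eps P ε) (hP : H45.pts b ⊆ P) {q : ℝ}
    (hq : q ∈ P) (hqb : q ∉ H45.pts b) (s t : Bool) : H45.H b s (q + sh ε t) = H45.H b s q :=
  H45.H_near b s ((near_sh h hq t).mono hP) hqb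

theorem Z_sh {b : SStar leaf} {P : Set ℝ} {ε : ℝ} (h : Eps P ε) (hP : H45.pts b ⊆ P) {q : ℝ}
    (hq : q ∈ P) (hqb : q ∉ H45.pts b) (t : Bool) : H45.Z b (q + sh ε t) = H45.Z b q := by
  unfold H45.Z
  rw [H_sh h hP hq hqb, H_sh h hP hq hqb]

theorem zw_eq (b k : SStar leaf) (x : Fin m) (n : ℕ) :
    H45.zw b k x n = ww k (H45.Z b) x n := by
  induction n with
  | zero => rfl
  | succ n ih =>
    rw [H45.zw, ww, ih]
    rfl

section

variable {b k : SStar leaf} (hgp : b.GP k) {P : Set ℝ} {ε : ℝ} (hε : Eps P ε)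
  (hb : W.pts b ⊆ P) (hk : W.pts k ⊆ P)

include hgp hε hb hk

theorem reg_Z : Reg k ε (H45.Z b) := by
  intro x i hi
  have h1 : (k.arm x).p (i + 1) ∉ H45.pts b := H45.gp_notMem hgp x hi
  have h2 : (k.arm x).p (i + 1) ∈ P := hk (pts_mem k x hi.le)
  exact ⟨Z_sh hε hb h2 h1 _, Z_sh hε hb h2 h1 _⟩

omit hgp hk in
/-- the loop at the leaf -/
theorem tipl_Z (x : Fin m) : ∃ e : ℤ, tipl k ε (H45.Z b) x =
    (H45.H b ((k.arm x).page ((k.arm x).len - 1)) (leaf x) * FreeGroup.of x ^ e) * FreeGroup.of x *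
    (H45.H b ((k.arm x).page ((k.arm x).len - 1)) (leaf x) * FreeGroup.of x ^ e)⁻¹ := by
  have hlp := (k.arm x).len_pos
  have hlast : (k.arm x).p ((k.arm x).len - 1 + 1) = leaf x := by
    rw [show (k.arm x).len - 1 + 1 = (k.arm x).len by omega, k.arm_last]
  have hlP : leaf x ∈ P := hb (leaf_mem b x)
  have n1 := (near_sh hε hlP true).mono hb
  have n2 := (near_sh hε hlP false).mono hb
  have h0 := hε.1
  have l1 : leaf x < leaf x + sh ε true := by simp only [sh, if_true]; linarith
  have l2 : leaf x + sh ε false < leaf x := by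
    simp only [sh, Bool.false_eq_true, if_false]; linarith
  have hZ := H45.Z_leaf b x n2 n1 l2 l1
  unfold tipl rc lc
  rw [hlast]
  cases hs : (k.arm x).page ((k.arm x).len - 1)
  · obtain ⟨e, he⟩ := H45.H_leaf b x false n2 l2.ne
    refine ⟨e, ?_⟩
    rw [← he]
    simp only [Bool.not_false, cross, if_true, Bool.false_eq_true, if_false]
    rw [hZ]
    unfold H45.Z
    group
  · obtain ⟨e, he⟩ := H45.H_leaf b x true n2 l2.ne
    refine ⟨e, ?_⟩
    rw [← he]
    simp only [Bool.not_true, cross, if_true, Bool.false_eq_true, if_false]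
    rw [hZ]
    unfold H45.Z
    group

omit hgp hk in
/-- The crossing words and the loops of the potential theory. -/
theorem conj_lpc (x : Fin m) : H45.A b k x * FreeGroup.of x * (H45.A b k x)⁻¹ =
    (H45.H b true k.ctr)⁻¹ * lpc k ε (H45.Z b) x * H45.H b true k.ctr := by
  obtain ⟨e, he⟩ := tipl_Z hε hb (k := k) x
  rw [H45.A_eq, zw_eq, W.page_zero]
  unfold lpc lpw
  rw [he]
  cases hs : (k.arm x).up
  · simp only [Bool.false_eq_true, if_false]
    unfold H45.Z
    group
  · simp only [if_true]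
    group

end

/-! ### The loop around the centre of `b` -/

section

variable {b : SStar leaf} {ε : ℝ} (h : Eps (W.pts b) ε)

include h

/-- The jump of the crossing words of `b` across the arm `x` of `b`. -/
theorem H_jump (x : Fin m) : H45.H b (b.arm x).up (lc b ε x 0) =
    H45.H b (b.arm x).up (rc b ε x 0) * (FreeGroup.of x)⁻¹ := by
  have hlp := (b.arm x).len_pos
  have hp : (b.arm x).p (0 + 1) ∈ W.pts b := pts_mem b x (by omega)
  have n1 := near_sh h hp true
  have n2 := near_sh h hp false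
  have h0 := h.1
  have l1 : (b.arm x).p (0 + 1) < (b.arm x).p (0 + 1) + sh ε true := by
    simp only [sh, if_true]; linarith
  have l2 : (b.arm x).p (0 + 1) + sh ε false < (b.arm x).p (0 + 1) := by
    simp only [sh, Bool.false_eq_true, if_false]; linarith
  have e := H45.H_arr b x (j := 0) (by omega) (W.page_zero _) n2 n1 l2 l1
  unfold H45.jmp at e
  unfold lc rc
  simp only [Nat.add_sub_cancel] at e
  rw [W.page_zero] at e ⊢
  cases hs : (b.arm x).up
  · rw [hs] at e
    simp only [Bool.not_false, Bool.false_eq_true, if_false] at e ⊢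
    rw [e]
    group
  · rw [hs] at e
    simp only [Bool.not_true, if_true] at e ⊢
    exact e

theorem ctr_loop (hm : 0 < m) : H45.Z b (b.ctr + ε) * (H45.Z b (b.ctr - ε))⁻¹ =
    H45.H b true (b.ctr + ε) * (b.rot.reverse.map FreeGroup.of).prod *
      (H45.H b true (b.ctr + ε))⁻¹ := by
  have hj : ∀ x, R (1 : FreeGroup (Fin m)) (H45.H b (b.arm x).up (lc b ε x 0))
      (H45.H b (b.arm x).up (rc b ε x 0) * (FreeGroup.of x)⁻¹) :=
    fun x => R.of_eq (H_jump h x)
  have hf : ∀ s x y, x ∉ W.pts b → y ∉ W.pts b → NS (arcs b s) x y →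
      R (1 : FreeGroup (Fin m)) (H45.H b s x) (H45.H b s y) := by
    intro s x y _ _ hns
    apply R.of_eq
    apply H45.H_eq
    intro i hi
    rw [H45.mem_pieces] at hi
    exact hns _ ⟨i.1, i.2, hi.1, hi.2, rfl⟩
  have e1 := (r_sd_end (f := H45.H b) h le_rfl hf _ hj hm true).one
  have e2 := (r_sd_end (f := H45.H b) h le_rfl hf _ hj hm false).one
  simp only [sh, Bool.not_true, Bool.not_false, if_true, Bool.false_eq_true, if_false,
    ← sub_eq_add_neg] at e1 e2
  have e3 : (b.rot.reverse.map FreeGroup.of).prod =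
      ((sd b false).map fun x => (FreeGroup.of x)⁻¹).prod⁻¹ *
      ((sd b true).map fun x => (FreeGroup.of x)⁻¹).prod⁻¹ := by
    rw [rot_eq, List.reverse_append, List.map_append, List.prod_append]
    have : ∀ l : List (Fin m), (l.reverse.map FreeGroup.of).prod =
        ((l.map fun x => (FreeGroup.of x)⁻¹).prod)⁻¹ := by
      intro l
      induction l with
      | nil => simp
      | cons a l ih =>
        rw [List.reverse_cons, List.map_append, List.prod_append, ih]
        simp only [List.map_cons, List.map_nil, List.prod_cons, List.prod_nil, mul_one,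
          mul_inv_rev, inv_inv]
    rw [this, this]
  unfold H45.Z
  rw [e1, e2, e3]
  group

end

/-! ### The potential of `k` with the puncture at the centre of `b` -/

section

variable {b k : SStar leaf} (hgp : b.GP k) {P : Set ℝ} {ε : ℝ} (hε : Eps P ε)
  (hb : W.pts b ⊆ P) (hk : W.pts k ⊆ P)

include hgp in
theorem ctr_notMem (hm : 0 < m) : b.ctr ∉ W.pts k := by
  rintro ⟨y, j, hj, h1⟩
  have := (hgp ⟨0, hm⟩ 0 y j (Nat.zero_le _) hj (by rw [b.arm_zero]; exact h1)).2.1
  have := (b.arm ⟨0, hm⟩).len_pos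
  omega

include hb hk in
/-- off the gap of the centre of `b`, the labels are constant on the gaps of `k` -/
theorem Z_SI {x y : ℝ} (hx : x ∉ P) (hy : y ∉ P) (hxy : SI (W.pts k) x y)
    (hn : ¬ SI (W.pts k) x b.ctr) : H45.Z b x = H45.Z b y := by
  have hxb : x ∉ W.pts b := fun h => hx (hb h)
  have hyb : y ∉ W.pts b := fun h => hy (hb h)
  have hxk : x ∉ W.pts k := fun h => hx (hk h)
  have hyk : y ∉ W.pts k := fun h => hy (hk h)
  have gt : ∀ {w : ℝ}, w ∉ W.pts k → ∀ p ∈ W.pts k, ¬ p < w → w < p := by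
    intro w hw p hp h
    exact lt_of_le_of_ne (not_lt.1 h) (fun h2 => hw (h2 ▸ hp))
  rcases hxy with h | h | h
  · refine H45.Z_gap b hxb hyb (fun z => h _ (leaf_mem k z)) ?_
    -- the centre is not between `x` and `y`
    constructor
    · intro h1
      by_contra h2
      refine hn (Or.inl fun p hp => ?_)
      have h3 : y ≤ b.ctr := not_lt.1 h2
      constructor
      · intro h4
        exact lt_of_lt_of_le ((h p hp).1 h4) h3
      · intro h4
        exact h4.trans h1
    · intro h1
      by_contra h2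
      refine hn (Or.inl fun p hp => ?_)
      have h3 : x ≤ b.ctr := not_lt.1 h2
      constructor
      · intro h4
        exact lt_of_lt_of_le h4 h3
      · intro h4
        exact (h p hp).2 (h4.trans h1)
  · -- `y` is left of all points, `x` is right of all points
    refine (H45.Z_inf b hyb hxb (fun z => ?_) ?_).symm
    · exact ⟨(h _ (leaf_mem k z)).2, (h _ (leaf_mem k z)).1⟩
    · constructor
      · by_contra h2
        refine hn (Or.inr (Or.inl fun p hp => ⟨(h p hp).1, ?_⟩))
        exact lt_of_le_of_lt (not_lt.1 h2) (h p hp).2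
      · by_contra h2
        refine hn (Or.inl fun p hp => ⟨fun _ => ?_, fun _ => (h p hp).1⟩)
        exact lt_of_lt_of_le (h p hp).1 (not_lt.1 h2)
  · refine H45.Z_inf b hxb hyb (fun z => ?_) ?_
    · exact h _ (leaf_mem k z)
    · constructor
      · by_contra h2
        refine hn (Or.inl fun p hp => ⟨fun h3 => absurd h3 (not_lt.2 (h p hp).1.le), fun h3 => ?_⟩)
        exact absurd (h3.trans_le (not_lt.1 h2)) (not_lt.2 (h p hp).1.le)
      · by_contra h2
        refine hn (Or.inr (Or.inr fun p hp => ⟨(h p hp).1, ?_⟩))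
        exact lt_of_lt_of_le (h p hp).2 (not_lt.1 h2)

include hε hb in
/-- in the gap of the centre of `b` there are two values -/
theorem Z_two (hm : 0 < m) {x : ℝ} (hx : x ∉ P)
    (hs : SI (W.pts k) x b.ctr) :
    H45.Z b x = H45.Z b (b.ctr + ε) ∨ H45.Z b x = H45.Z b (b.ctr - ε) := by
  have hxb : x ∉ W.pts b := fun h => hx (hb h)
  have hcP : b.ctr ∈ P := hb (ctr_mem b hm)
  have n1 : b.ctr + ε ∉ W.pts b := fun h => hε.add_notMem hcP (hb h)
  have n2 : b.ctr - ε ∉ W.pts b := fun h => hε.sub_notMem hcP (hb h)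
  have h0 := hε.1
  have lne : ∀ z, leaf z ≠ b.ctr := b.ctr_ne
  have hl : ∀ z, leaf z ∈ P := fun z => hb (leaf_mem b z)
  rcases lt_trichotomy x b.ctr with hlt | heq | hgt
  · rcases hs with h | h | h
    · right
      refine H45.Z_gap b hxb n2 (fun z => ?_) ?_
      · rw [h _ (leaf_mem k z), hε.lt_sub hcP (hl z)]
      · exact ⟨fun h1 => absurd h1 (not_lt.2 hlt.le), fun h1 => by linarith⟩
    · have := h _ (leaf_mem k ⟨0, hm⟩)
      exact absurd hlt (not_lt.2 (this.2.le.trans this.1.le))
    · left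
      refine H45.Z_inf b hxb n1 (fun z => ?_) ⟨hlt, by linarith⟩
      have := h _ (leaf_mem k z)
      exact ⟨this.1, by linarith [this.2]⟩
  · exact absurd (heq ▸ hcP) hx
  · rcases hs with h | h | h
    · left
      refine H45.Z_gap b hxb n1 (fun z => ?_) ?_
      · rw [h _ (leaf_mem k z), hε.lt_add hcP (hl z)]
        exact ⟨fun h1 => h1.le, fun h1 => lt_of_le_of_ne h1 (lne z)⟩
      · exact ⟨fun _ => by linarith, fun _ => hgt⟩
    · right
      refine (H45.Z_inf b n2 hxb (fun z => ?_) ⟨by linarith, hgt⟩).symm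
      have := h _ (leaf_mem k z)
      exact ⟨by linarith [this.2], this.1⟩
    · have := h _ (leaf_mem k ⟨0, hm⟩)
      exact absurd hgt (not_lt.2 (this.1.le.trans this.2.le))

include hgp hε hb hk in
/-- The potential of `k` with the labels `Z b`: one-valued up to powers of the loop around the
centre of `b`. -/
theorem exists_f (hm : 0 < m) : ∃ (f : Bool → ℝ → FreeGroup (Fin m))
    (S : FreeGroup (Fin m)),
    (∀ s x y, x ∉ P → y ∉ P → NS (arcs k s) x y →
      R (S * (H45.Z b (b.ctr + ε) * (H45.Z b (b.ctr - ε))⁻¹) * S⁻¹) (f s x) (f s y)) ∧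
    (∀ s z, z ∉ P → f (!s) z = f s z * cross s (H45.Z b z)) := by
  classical
  have hc : b.ctr ∉ W.pts k := ctr_notMem hgp hm
  have hne : (W.pts k).Nonempty := ⟨_, ctr_mem k hm⟩
  have hrep : ∀ p : ℝ, ∃ q, p ∉ W.pts k → q ∉ P ∧ SI (W.pts k) p q := by
    intro p
    by_cases hp : p ∈ W.pts k
    · exact ⟨0, fun h => absurd hp h⟩
    · by_cases hpP : p ∈ P
      · refine ⟨p + ε, fun _ => ⟨hε.add_notMem hpP, Or.inl fun z hz => ?_⟩⟩
        rw [hε.lt_add hpP (hk hz)]
        exact ⟨fun h1 => h1.le, fun h1 => lt_of_le_of_ne h1 (fun h2 => hp (h2 ▸ hz))⟩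
      · exact ⟨p, fun _ => ⟨hpP, SI.refl _ _⟩⟩
  choose rep hrep using hrep
  obtain ⟨g', hg'⟩ : ∃ g' : ℝ → FreeGroup (Fin m), g' = fun p =>
      if SI (W.pts k) p b.ctr then H45.Z b (b.ctr - ε) else H45.Z b (rep p) := ⟨_, rfl⟩
  have hconst : ∀ x y, x ∉ W.pts k → y ∉ W.pts k → SI (W.pts k) x y → g' x = g' y := by
    intro x y hx hy hxy
    by_cases h1 : SI (W.pts k) x b.ctr
    · have h2 : SI (W.pts k) y b.ctr := hxy.symm.trans hne h1 hy hx hc
      simp only [hg', if_pos h1, if_pos h2]
    · have h2 : ¬ SI (W.pts k) y b.ctr := fun h2 => h1 (hxy.trans hne h2 hx hy hc)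
      simp only [hg', if_neg h1, if_neg h2]
      obtain ⟨a1, a2⟩ := hrep x hx
      obtain ⟨c1, c2⟩ := hrep y hy
      have a3 : rep x ∉ W.pts k := fun h => a1 (hk h)
      have c3 : rep y ∉ W.pts k := fun h => c1 (hk h)
      refine Z_SI hb hk a1 c1 ?_ ?_
      · exact (a2.symm.trans hne hxy a3 hx hy).trans hne c2 a3 hy c3
      · intro h
        exact h1 (a2.trans hne h hx a3 hc)
  obtain ⟨u, hu⟩ := exists_pot k hm g' hconst
  have hZg : ∀ z, z ∉ P → ¬ SI (W.pts k) z b.ctr → H45.Z b z = g' z := by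
    intro z hz h1
    have hzk : z ∉ W.pts k := fun h => hz (hk h)
    simp only [hg', if_neg h1]
    obtain ⟨a1, a2⟩ := hrep z hzk
    exact Z_SI hb hk hz a1 a2 h1
  have huc : ∀ z, z ∉ P → SI (W.pts k) z b.ctr → u z = u b.ctr := by
    intro z hz h1
    have hzk : z ∉ W.pts k := fun h => hz (hk h)
    refine hu.up z _ hzk hc ?_
    rintro _ ⟨w, j, hj, -, rfl⟩
    exact SI.ins h1 hzk hc (pts_mem k w (by omega)) (pts_mem k w (i := j + 1) (by omega))
  refine ⟨fun s z => tau (H45.Z b) u s z, u b.ctr, ?_, ?_⟩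
  · have key : ∀ z, z ∉ P → R (u b.ctr * (H45.Z b (b.ctr + ε) * (H45.Z b (b.ctr - ε))⁻¹) *
        (u b.ctr)⁻¹) (u z * H45.Z b z) (u z * g' z) := by
      intro z hz
      by_cases h1 : SI (W.pts k) z b.ctr
      · rw [huc z hz h1]
        simp only [hg', if_pos h1]
        rcases Z_two hε hb hm hz h1 with h2 | h2
        · rw [h2]
          exact ⟨1, by group⟩
        · rw [h2]
          exact R.refl _ _
      · rw [hZg z hz h1]
        exact R.refl _ _
    intro s x y hx hy hns
    have hxk : x ∉ W.pts k := fun h => hx (hk h)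
    have hyk : y ∉ W.pts k := fun h => hy (hk h)
    cases s
    · have e := hu.dn x y hxk hyk hns
      simp only [tau, Bool.false_eq_true, if_false]
      exact (key x hx).trans ((R.of_eq e).trans (key y hy).symm)
    · simp only [tau, if_true]
      exact R.of_eq (hu.up x y hxk hyk hns)
  · intro s z _
    exact tau_not _ _ s z

end

/-! ### The exponent sum -/

/-- exponent sum -/
def es : FreeGroup (Fin m) →* Multiplicative ℤ :=
  FreeGroup.lift fun _ => Multiplicative.ofAdd (1 : ℤ)

theorem es_of (x : Fin m) : es (FreeGroup.of x) = Multiplicative.ofAdd (1 : ℤ) := by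
  simp [es]

theorem es_prod (L : List (Fin m)) (F : Fin m → FreeGroup (Fin m))
    (hF : ∀ x, es (F x) = Multiplicative.ofAdd (1 : ℤ)) :
    es (L.map F).prod = Multiplicative.ofAdd (L.length : ℤ) := by
  induction L with
  | nil => simp
  | cons a l ih =>
    rw [List.map_cons, List.prod_cons, map_mul, ih, hF, ← ofAdd_add, List.length_cons]
    congr 1
    push_cast
    ring

/-- **The product relation**: the loops of the crossing words in the rotation order. -/
theorem prod_conj {b k : SStar leaf} (hgp : b.GP k) :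
    IsConj (k.rot.map fun x => H45.A b k x * FreeGroup.of x * (H45.A b k x)⁻¹).prod
      (b.rot.reverse.map FreeGroup.of).prod := by
  rcases Nat.eq_zero_or_pos m with hm0 | hm
  · have h1 : k.rot = [] := List.eq_nil_of_length_eq_zero (by rw [k.length_rot, hm0])
    have h2 : b.rot = [] := List.eq_nil_of_length_eq_zero (by rw [b.length_rot, hm0])
    rw [h1, h2]
    simp
  have hPf : (W.pts b ∪ W.pts k).Finite := (pts_finite b).union (pts_finite k)
  obtain ⟨ε, hε⟩ := exists_eps hPf
  have hb : W.pts b ⊆ W.pts b ∪ W.pts k := Set.subset_union_left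
  have hk : W.pts k ⊆ W.pts b ∪ W.pts k := Set.subset_union_right
  obtain ⟨f, S, hf, hg⟩ := exists_f hgp hε hb hk hm
  have hr := reg_Z hgp hε hb hk
  have hkc : k.ctr ∈ W.pts b ∪ W.pts k := hk (ctr_mem k hm)
  have hkb : k.ctr ∉ H45.pts b := by
    have := H45.gp_notMem hgp ⟨0, hm⟩ (j := 0) (k.arm _).len_pos
    rwa [k.arm_zero] at this
  have hc1 : H45.Z b (k.ctr + ε) = H45.Z b k.ctr := by
    have := Z_sh hε hb hkc hkb true
    simpa [sh] using this
  have hc2 : H45.Z b (k.ctr - ε) = H45.Z b k.ctr := by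
    have := Z_sh hε hb hkc hkb false
    simpa [sh, ← sub_eq_add_neg] using this
  obtain ⟨n, hn⟩ := r_rel hε hk hf hg hr hm hc1 hc2
  rw [ctr_loop (hε.mono hb) hm] at hn
  have h1 : (k.rot.map fun x => H45.A b k x * FreeGroup.of x * (H45.A b k x)⁻¹).prod =
      (H45.H b true k.ctr)⁻¹ * (k.rot.map (lpc k ε (H45.Z b))).prod * H45.H b true k.ctr := by
    have : ∀ L : List (Fin m),
        (L.map fun x => H45.A b k x * FreeGroup.of x * (H45.A b k x)⁻¹).prod =
        (H45.H b true k.ctr)⁻¹ * (L.map (lpc k ε (H45.Z b))).prod * H45.H b true k.ctr := by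
      intro L
      induction L with
      | nil => simp
      | cons a L ih =>
        rw [List.map_cons, List.prod_cons, ih, conj_lpc hε hb, List.map_cons,
          List.prod_cons]
        group
    exact this _
  -- exponent sums
  have e1 : es (k.rot.map fun x => H45.A b k x * FreeGroup.of x * (H45.A b k x)⁻¹).prod =
      Multiplicative.ofAdd (m : ℤ) := by
    rw [es_prod _ _ fun x => by rw [map_mul, map_mul, map_inv, es_of]; simp, k.length_rot]
  have e2 : es (b.rot.reverse.map FreeGroup.of).prod = Multiplicative.ofAdd (m : ℤ) := by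
    rw [es_prod _ _ es_of, List.length_reverse, b.length_rot]
  have e3 : Multiplicative.ofAdd (m : ℤ) = (Multiplicative.ofAdd (m : ℤ)) ^ n := by
    rw [h1, hn] at e1
    simp only [map_mul, map_inv, map_zpow, e2] at e1
    have hcj : ∀ a w : Multiplicative ℤ, w * a * w⁻¹ = a := fun a w => by
      rw [mul_comm w, mul_inv_cancel_right]
    have hcj' : ∀ a w : Multiplicative ℤ, w⁻¹ * a * w = a := fun a w => by
      rw [mul_comm w⁻¹, inv_mul_cancel_right]
    rw [hcj, hcj, hcj', hcj'] at e1
    exact e1.symm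
  have hn1 : n = 1 := by
    have h3 : (m : ℤ) = n * m := by
      have h4 := congrArg Multiplicative.toAdd e3
      rwa [toAdd_zpow, toAdd_ofAdd, smul_eq_mul] at h4
    have h5 : (0 : ℤ) < m := by exact_mod_cast hm
    have h6 : (n - 1) * (m : ℤ) = 0 := by linarith
    rcases mul_eq_zero.1 h6 with h7 | h7
    · linarith
    · omega
  subst hn1
  rw [h1, hn, isConj_iff]
  refine ⟨((H45.H b true k.ctr)⁻¹ * (f true (k.ctr + ε))⁻¹ * S * H45.H b true (b.ctr + ε))⁻¹, ?_⟩
  group

theorem GP.symm {b k : SStar leaf} (h : b.GP k) : k.GP b := by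
  intro x i y j hi hj he
  obtain ⟨h1, h2, h3⟩ := h y j x i hj hi he.symm
  exact ⟨h1.symm, h3, h2⟩

/-- **W1.** The crossing words of the arms of `b` with the star `k`. -/
theorem w1 {b k : SStar leaf} (h : b.GP k) : ∃ W : Fin m → FreeGroup (Fin m),
    (∀ x, W x * FreeGroup.of x * (W x)⁻¹ =
      H45.A k b x * FreeGroup.of x * (H45.A k b x)⁻¹) ∧
    ∑ x, (W x).norm ≤ b.cr k ∧
    IsConj (b.rot.map fun x => H45.A k b x * FreeGroup.of x * (H45.A k b x)⁻¹).prod
      (k.rot.reverse.map FreeGroup.of).prod := by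
  have h' := GP.symm h
  choose e he using fun x => H45.len_A h' x
  refine ⟨fun x => H45.A k b x * FreeGroup.of x ^ e x, fun x => ?_, ?_, prod_conj h'⟩
  · group
  · exact Finset.sum_le_sum fun x _ => he x

end Vale.Agent.P040.H45W
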