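import Vale.Agent.P040.H45.Nest

/-!
# The crossing words of a star: `H`, `Z` and the words of paths
-/

set_option autoImplicit false

namespace Vale.Agent.P040.H45

open Finset H177 Bp Topo

/-! ### Points near a point -/

/-- `q` is next to `r` with respect to `P` (on one of its sides) and not in `P`. -/
def Near (P : Set ℝ) (q r : ℝ) : Prop := q ∉ P ∧ ∀ z ∈ P, z ≠ r → (z < q ↔ z < r)

theorem ins_comm (a b x : ℝ) : Ins (a, b) x ↔ Ins (b, a) x := by
  unfold Ins
  simp only [min_comm, max_comm]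

theorem Near.ins {P : Set ℝ} {q r : ℝ} (h : Near P q r) {e : ℝ × ℝ} (h1 : e.1 ∈ P) (h2 : e.2 ∈ P)
    (h3 : e.1 ≠ r) (h4 : e.2 ≠ r) : Ins e q ↔ Ins e r := by
  have m1 : min e.1 e.2 ∈ P ∧ min e.1 e.2 ≠ r := by
    rcases min_choice e.1 e.2 with h | h <;> rw [h] <;> exact ⟨by assumption, by assumption⟩
  have m2 : max e.1 e.2 ∈ P ∧ max e.1 e.2 ≠ r := by
    rcases max_choice e.1 e.2 with h | h <;> rw [h] <;> exact ⟨by assumption, by assumption⟩
  unfold Ins
  have e1 := h.2 _ m1.1 m1.2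
  have e2 := h.2 _ m2.1 m2.2
  have n1 : max e.1 e.2 ≠ q := fun h' => h.1 (h' ▸ m2.1)
  have e3 : (q < max e.1 e.2 ↔ r < max e.1 e.2) := by
    constructor
    · intro h5
      exact lt_of_le_of_ne (not_lt.1 fun h6 => absurd (e2.2 h6) (not_lt.2 h5.le)) (Ne.symm m2.2)
    · intro h5
      exact lt_of_le_of_ne (not_lt.1 fun h6 => absurd (e2.1 h6) (not_lt.2 h5.le)) (Ne.symm n1)
  rw [e1, e3]

theorem Near.ins_lt {P : Set ℝ} {q r t : ℝ} (h : Near P q r) (ht : t ∈ P) (htr : t ≠ r)
    (hq : q < r) : Ins (r, t) q ↔ t < r := by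
  unfold Ins
  constructor
  · rintro ⟨h1, -⟩
    by_contra h2
    have h3 : r ≤ t := not_lt.1 h2
    simp only [min_eq_left h3] at h1
    exact lt_asymm h1 hq
  · intro h1
    simp only [min_eq_right h1.le, max_eq_left h1.le]
    exact ⟨(h.2 t ht htr).2 h1, hq⟩

theorem Near.ins_gt {P : Set ℝ} {q r t : ℝ} (h : Near P q r) (ht : t ∈ P) (htr : t ≠ r)
    (hq : r < q) : Ins (r, t) q ↔ r < t := by
  unfold Ins
  constructor
  · rintro ⟨-, h1⟩
    by_contra h2
    have h3 : t ≤ r := not_lt.1 h2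
    simp only [max_eq_left h3] at h1
    exact lt_asymm h1 hq
  · intro h1
    simp only [min_eq_left h1.le, max_eq_right h1.le]
    refine ⟨hq, ?_⟩
    by_contra h2
    have h3 : t ≠ q := fun h' => h.1 (h' ▸ ht)
    exact lt_asymm h1 ((h.2 t ht htr).1 (lt_of_le_of_ne (not_lt.1 h2) h3))

theorem not_ins_end (r t : ℝ) : ¬ Ins (r, t) r := by
  unfold Ins
  rintro ⟨h1, h2⟩
  rcases le_total r t with h | h
  · simp only [min_eq_left h] at h1
    exact lt_irrefl _ h1
  · simp only [max_eq_left h] at h2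
    exact lt_irrefl _ h2

variable {m : ℕ} {leaf : Fin m → ℝ}

/-- The points of a star on the spine. -/
def pts (b : SStar leaf) : Set ℝ := {t | ∃ x, ∃ i ≤ (b.arm x).len, t = (b.arm x).p i}

theorem mem_pts (b : SStar leaf) (x : Fin m) {i : ℕ} (hi : i ≤ (b.arm x).len) :
    (b.arm x).p i ∈ pts b := ⟨x, i, hi, rfl⟩

theorem finite_pts (b : SStar leaf) : (pts b).Finite := by
  have : pts b = ⋃ x : Fin m, (fun i => (b.arm x).p i) '' Set.Iic (b.arm x).len := by
    ext t
    simp only [pts, Set.mem_iUnion, Set.mem_image, Set.mem_Iic]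
    constructor
    · rintro ⟨x, i, hi, rfl⟩
      exact ⟨x, i, hi, rfl⟩
    · rintro ⟨x, i, hi, rfl⟩
      exact ⟨x, i, hi, rfl⟩
  rw [this]
  exact Set.finite_iUnion fun x => (Set.finite_Iic _).image _

/-- The ends of a piece `(x, j)`. -/
def ends (b : SStar leaf) (q : Fin m × ℕ) : ℝ × ℝ := ((b.arm q.1).p q.2, (b.arm q.1).p (q.2 + 1))

/-- The pieces of page `s`. -/
def pieces (b : SStar leaf) (s : Bool) : Finset (Fin m × ℕ) :=
  (Finset.univ ×ˢ Finset.range (Finset.univ.sup fun x => (b.arm x).len)).filter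
    (fun q => q.2 < (b.arm q.1).len ∧ (b.arm q.1).page q.2 = s)

theorem mem_pieces (b : SStar leaf) (s : Bool) (q : Fin m × ℕ) :
    q ∈ pieces b s ↔ q.2 < (b.arm q.1).len ∧ (b.arm q.1).page q.2 = s := by
  unfold pieces
  simp only [Finset.mem_filter, Finset.mem_product, Finset.mem_univ, Finset.mem_range, true_and]
  constructor
  · exact fun h => h.2
  · intro h
    exact ⟨lt_of_lt_of_le h.1 (Finset.le_sup (f := fun x => (b.arm x).len) (Finset.mem_univ _)), h⟩

/-- The letter met when the piece is crossed from outside to inside: letter `y` = crossing arm `y`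
from the left to the right. -/
noncomputable def lab (b : SStar leaf) (q : Fin m × ℕ) : FreeGroup (Fin m) :=
  if (b.arm q.1).page q.2 = true ↔ (ends b q).1 < (ends b q).2 then FreeGroup.of q.1
  else (FreeGroup.of q.1)⁻¹

theorem exists_H (b : SStar leaf) (s : Bool) : ∃ H : ℝ → FreeGroup (Fin m),
    (∀ p q, (∀ i ∈ pieces b s, (Ins (ends b i) p ↔ Ins (ends b i) q)) → H p = H q) ∧
    (∀ i ∈ pieces b s, ∀ p q, Ins (ends b i) p → ¬ Ins (ends b i) q →
      (∀ j ∈ pieces b s, j ≠ i → (Ins (ends b j) p ↔ Ins (ends b j) q)) → H p = H q * lab b i) ∧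
    (∀ p q, ∀ T ⊆ pieces b s, (∀ i ∈ pieces b s, ¬ (Ins (ends b i) p ↔ Ins (ends b i) q) → i ∈ T) →
        ((H p)⁻¹ * H q).norm ≤ T.card) := by
  apply nest
  · intro i hi j hj h
    rw [mem_pieces] at hi hj
    exact b.nc i.1 i.2 j.1 j.2 hi.1 hj.1 ⟨hi.2.trans hj.2.symm, h⟩
  · intro i _
    unfold lab
    split_ifs
    · rw [FreeGroup.norm_of]
    · rw [FreeGroup.norm_inv_eq, FreeGroup.norm_of]

/-- The crossing word of the star `b` to the point `p` of the spine, in the page `s`. -/
noncomputable def H (b : SStar leaf) (s : Bool) : ℝ → FreeGroup (Fin m) := (exists_H b s).choose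

theorem H_eq (b : SStar leaf) (s : Bool) {p q : ℝ}
    (h : ∀ i ∈ pieces b s, (Ins (ends b i) p ↔ Ins (ends b i) q)) : H b s p = H b s q :=
  (exists_H b s).choose_spec.1 p q h

theorem H_in (b : SStar leaf) (s : Bool) {i : Fin m × ℕ} (hi : i ∈ pieces b s) {p q : ℝ}
    (hp : Ins (ends b i) p) (hq : ¬ Ins (ends b i) q)
    (h : ∀ j ∈ pieces b s, j ≠ i → (Ins (ends b j) p ↔ Ins (ends b j) q)) :
    H b s p = H b s q * lab b i :=
  (exists_H b s).choose_spec.2.1 i hi p q hp hq h

theorem H_norm (b : SStar leaf) (s : Bool) (p q : ℝ) (T : Finset (Fin m × ℕ))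
    (hT : T ⊆ pieces b s)
    (h : ∀ i ∈ pieces b s, ¬ (Ins (ends b i) p ↔ Ins (ends b i) q) → i ∈ T) :
    ((H b s p)⁻¹ * H b s q).norm ≤ T.card :=
  (exists_H b s).choose_spec.2.2 p q T hT h

/-- The function `Z`: from the upper page through the spine to the lower page. -/
noncomputable def Z (b : SStar leaf) (p : ℝ) : FreeGroup (Fin m) := H b true p * (H b false p)⁻¹

/-- Points of one interval. -/
theorem H_near (b : SStar leaf) (s : Bool) {q r : ℝ} (h : Near (pts b) q r) (hr : r ∉ pts b) :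
    H b s q = H b s r := by
  apply H_eq
  intro i hi
  rw [mem_pieces] at hi
  exact h.ins (mem_pts b _ (by omega)) (mem_pts b _ (by omega))
    (fun h' => hr (h' ▸ mem_pts b _ (by omega))) (fun h' => hr (h' ▸ mem_pts b _ (by omega)))

/-- The letter of the passage of `(b.arm y).p j`, `1 ≤ j ≤ len`, to the right. -/
noncomputable def jmp (b : SStar leaf) (y : Fin m) (j : ℕ) : FreeGroup (Fin m) :=
  if (b.arm y).page (j - 1) = true then (FreeGroup.of y)⁻¹ else FreeGroup.of y

theorem page_succ (B : Arm) (j : ℕ) : B.page (j + 1) = !B.page j := by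
  unfold Arm.page
  by_cases h : Even j
  · have h' : ¬ Even (j + 1) := by rw [Nat.even_add_one]; simpa using h
    rw [if_pos h, if_neg h']
  · have h' : Even (j + 1) := by rw [Nat.even_add_one]; simpa using h
    rw [if_neg h, if_pos h', Bool.not_not]

/-- Passing the end of an arriving piece. -/
theorem H_arr (b : SStar leaf) (y : Fin m) {j : ℕ} (hj : j + 1 ≤ (b.arm y).len) {s : Bool}
    (hs : (b.arm y).page j = s) {q q' : ℝ} (hq : Near (pts b) q ((b.arm y).p (j + 1)))
    (hq' : Near (pts b) q' ((b.arm y).p (j + 1))) (h1 : q < (b.arm y).p (j + 1))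
    (h2 : (b.arm y).p (j + 1) < q') : H b s q' = H b s q * jmp b y (j + 1) := by
  have hi : (y, j) ∈ pieces b s := by
    rw [mem_pieces]; exact ⟨Nat.lt_of_succ_le hj, hs⟩
  have hoth : ∀ i ∈ pieces b s, i ≠ (y, j) → (Ins (ends b i) q ↔ Ins (ends b i) q') := by
    rintro ⟨x, i⟩ hi' hne
    rw [mem_pieces] at hi'
    simp only at hi'
    have e1 : (b.arm x).p i ≠ (b.arm y).p (j + 1) := by
      intro h
      rcases b.inj x i y (j + 1) (by omega) hj h with ⟨h3, h4⟩ | ⟨-, h4⟩
      · subst h3 h4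
        rw [page_succ] at hi'
        have := hi'.2
        rw [hs] at this
        cases s <;> simp at this
      · omega
    have e2 : (b.arm x).p (i + 1) ≠ (b.arm y).p (j + 1) := by
      intro h
      rcases b.inj x (i + 1) y (j + 1) (by omega) hj h with ⟨h3, h4⟩ | ⟨-, h4⟩
      · apply hne
        rw [h3, show i = j by omega]
      · omega
    rw [hq.ins (mem_pts b x (by omega)) (mem_pts b x (by omega)) e1 e2,
      hq'.ins (mem_pts b x (by omega)) (mem_pts b x (by omega)) e1 e2]
  have hne : (b.arm y).p j ≠ (b.arm y).p (j + 1) := by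
    intro h
    rcases b.inj y j y (j + 1) (by omega) hj h with ⟨-, h4⟩ | ⟨-, h4⟩ <;> omega
  have hm : (b.arm y).p j ∈ pts b := mem_pts b y (by omega)
  have i1 : Ins (ends b (y, j)) q ↔ (b.arm y).p j < (b.arm y).p (j + 1) := by
    unfold ends
    rw [ins_comm]
    exact hq.ins_lt hm hne h1
  have i2 : Ins (ends b (y, j)) q' ↔ (b.arm y).p (j + 1) < (b.arm y).p j := by
    unfold ends
    rw [ins_comm]
    exact hq'.ins_gt hm hne h2
  unfold jmp
  rw [show j + 1 - 1 = j by omega, hs]
  rcases lt_or_gt_of_ne hne with h3 | h3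
  · have h4 := H_in b s hi (i1.2 h3) (fun h => lt_asymm h3 (i2.1 h)) (fun i hi hne => hoth i hi hne)
    rw [h4]
    unfold lab
    simp only [ends, hs, h3, iff_true]
    cases s <;> simp
  · have h4 := H_in b s hi (i2.2 h3) (fun h => lt_asymm h3 (i1.1 h))
      (fun i hi hne => (hoth i hi hne).symm)
    rw [h4]
    unfold lab
    simp only [ends, hs, not_lt.2 h3.le, iff_false]
    cases s <;> simp

/-- Passing the beginning of a departing piece. -/
theorem H_dep (b : SStar leaf) (y : Fin m) {j : ℕ} (hj : j + 1 < (b.arm y).len) {s : Bool}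
    (hs : (b.arm y).page (j + 1) = s) {q q' : ℝ} (hq : Near (pts b) q ((b.arm y).p (j + 1)))
    (hq' : Near (pts b) q' ((b.arm y).p (j + 1))) (h1 : q < (b.arm y).p (j + 1))
    (h2 : (b.arm y).p (j + 1) < q') : H b s q' = H b s q * jmp b y (j + 1) := by
  have hi : (y, j + 1) ∈ pieces b s := by
    rw [mem_pieces]; exact ⟨hj, hs⟩
  have hoth : ∀ i ∈ pieces b s, i ≠ (y, j + 1) → (Ins (ends b i) q ↔ Ins (ends b i) q') := by
    rintro ⟨x, i⟩ hi' hne
    rw [mem_pieces] at hi'
    simp only at hi'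
    have e1 : (b.arm x).p i ≠ (b.arm y).p (j + 1) := by
      intro h
      rcases b.inj x i y (j + 1) (by omega) hj.le h with ⟨h3, h4⟩ | ⟨-, h4⟩
      · apply hne
        rw [h3, h4]
      · omega
    have e2 : (b.arm x).p (i + 1) ≠ (b.arm y).p (j + 1) := by
      intro h
      rcases b.inj x (i + 1) y (j + 1) (by omega) hj.le h with ⟨h3, h4⟩ | ⟨-, h4⟩
      · subst h3
        have h5 : i = j := by omega
        subst h5
        rw [page_succ] at hs
        have := hi'.2
        rw [← hs] at this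
        cases h6 : (b.arm x).page i <;> simp [h6] at this
      · omega
    rw [hq.ins (mem_pts b x (by omega)) (mem_pts b x (by omega)) e1 e2,
      hq'.ins (mem_pts b x (by omega)) (mem_pts b x (by omega)) e1 e2]
  have hne : (b.arm y).p (j + 1 + 1) ≠ (b.arm y).p (j + 1) := by
    intro h
    rcases b.inj y (j + 1 + 1) y (j + 1) (by omega) hj.le h with ⟨-, h4⟩ | ⟨-, h4⟩ <;> omega
  have hm : (b.arm y).p (j + 1 + 1) ∈ pts b := mem_pts b y (by omega)
  have i1 : Ins (ends b (y, j + 1)) q ↔ (b.arm y).p (j + 1 + 1) < (b.arm y).p (j + 1) :=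
    hq.ins_lt hm hne h1
  have i2 : Ins (ends b (y, j + 1)) q' ↔ (b.arm y).p (j + 1) < (b.arm y).p (j + 1 + 1) :=
    hq'.ins_gt hm hne h2
  have hs' : (b.arm y).page j = !s := by
    rw [page_succ] at hs
    rw [← hs, Bool.not_not]
  unfold jmp
  rw [show j + 1 - 1 = j by omega, hs']
  rcases lt_or_gt_of_ne hne with h3 | h3
  · have h4 := H_in b s hi (i1.2 h3) (fun h => lt_asymm h3 (i2.1 h)) (fun i hi hne => hoth i hi hne)
    rw [h4]
    unfold lab
    simp only [ends, hs, not_lt.2 h3.le, iff_false]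
    cases s <;> simp
  · have h4 := H_in b s hi (i2.2 h3) (fun h => lt_asymm h3 (i1.1 h))
      (fun i hi hne => (hoth i hi hne).symm)
    rw [h4]
    unfold lab
    simp only [ends, hs, h3, iff_true]
    cases s <;> simp

/-- `Z` does not change at the regular points of the star. -/
theorem Z_reg (b : SStar leaf) (y : Fin m) {j : ℕ} (hj : j + 1 < (b.arm y).len) {q q' : ℝ}
    (hq : Near (pts b) q ((b.arm y).p (j + 1))) (hq' : Near (pts b) q' ((b.arm y).p (j + 1)))
    (h1 : q < (b.arm y).p (j + 1)) (h2 : (b.arm y).p (j + 1) < q') : Z b q' = Z b q := by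
  unfold Z
  cases hs : (b.arm y).page j
  · have hs' : (b.arm y).page (j + 1) = true := by rw [page_succ, hs]; rfl
    rw [H_arr b y hj.le hs hq hq' h1 h2, H_dep b y hj hs' hq hq' h1 h2]
    group
  · have hs' : (b.arm y).page (j + 1) = false := by rw [page_succ, hs]; rfl
    rw [H_arr b y hj.le hs hq hq' h1 h2, H_dep b y hj hs' hq hq' h1 h2]
    group

end Vale.Agent.P040.H45
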