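import Mathlib

/-!
# Odd colourings of points of a circle and the count of monochromatic pairs
-/

namespace Vale.Agent.P040.H45

open Finset MeasureTheory

/-- the colour of `a` at the threshold `t` -/
noncomputable def col (a t : ℝ) : ℤ := ⌊2 * (a - t)⌋

theorem intervalIntegrable_col (a : ℝ) (u v : ℝ) :
    IntervalIntegrable (fun t => ((col a t : ℤ) : ℝ)) volume u v := by
  apply Antitone.intervalIntegrable
  intro s t hst
  have h : col a t ≤ col a s := Int.floor_mono (by linarith)
  show ((col a t : ℤ) : ℝ) ≤ ((col a s : ℤ) : ℝ)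
  exact_mod_cast h

theorem integral_col_sub (a c : ℝ) :
    ∫ t in (0:ℝ)..1, (((col c t : ℤ) : ℝ) - ((col a t : ℤ) : ℝ)) = 2 * (c - a) := by
  have key : ∀ a : ℝ, ∫ t in (0:ℝ)..1, ((col a t : ℤ) : ℝ) =
      (2 * a - 1) - ∫ t in (0:ℝ)..1, Int.fract (-(2 * t)) := by
    intro a
    have h1 : (fun t : ℝ => ((col a t : ℤ) : ℝ)) =
        fun t => 2 * (a - t) - Int.fract (-(2 * (t - a))) := by
      funext t
      unfold col
      rw [show -(2 * (t - a)) = 2 * (a - t) by ring, Int.self_sub_fract]
    have hint : IntervalIntegrable (fun t : ℝ => 2 * (a - t)) volume 0 1 :=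
      (Continuous.intervalIntegrable (by fun_prop) _ _)
    have hfr : IntervalIntegrable (fun t : ℝ => Int.fract (-(2 * (t - a)))) volume 0 1 := by
      have : (fun t : ℝ => Int.fract (-(2 * (t - a)))) =
          fun t => 2 * (a - t) - ((col a t : ℤ) : ℝ) := by
        funext t
        unfold col
        rw [show -(2 * (t - a)) = 2 * (a - t) by ring, Int.self_sub_floor]
      rw [this]
      exact hint.sub (intervalIntegrable_col a 0 1)
    rw [h1, intervalIntegral.integral_sub hint hfr]
    congr 1
    · have : ∫ t in (0:ℝ)..1, 2 * (a - t) = 2 * (a * 1 - 1 / 2) := by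
        rw [intervalIntegral.integral_const_mul, intervalIntegral.integral_sub
          (by simp) (by simp)]
        simp
      rw [this]; ring
    · have hper : Function.Periodic (fun t : ℝ => Int.fract (-(2 * t))) 1 := by
        intro t
        show Int.fract (-(2 * (t + 1))) = Int.fract (-(2 * t))
        rw [show -(2 * (t + 1)) = -(2 * t) - ((2 : ℤ) : ℝ) by push_cast; ring,
          Int.fract_sub_intCast]
      have h2 := intervalIntegral.integral_comp_sub_right
        (fun t : ℝ => Int.fract (-(2 * t))) a (a := 0) (b := 1)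
      rw [h2]
      have h3 := hper.intervalIntegral_add_eq (0 - a) 0
      rw [zero_add] at h3
      rw [show (1 : ℝ) - a = 0 - a + 1 by ring, h3]
  rw [intervalIntegral.integral_sub (intervalIntegrable_col c 0 1)
    (intervalIntegrable_col a 0 1), key a, key c]
  ring

/-- A 2-colouring of `n` points has at least `⌊n/2⌋ ⌊(n-1)/2⌋` monochromatic pairs. -/
theorem mono_pairs {n : ℕ} (s : Fin n → Bool) :
    (n / 2) * ((n - 1) / 2) ≤
      (univ.filter (fun p : Fin n × Fin n => p.1 < p.2 ∧ s p.1 = s p.2)).card := by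
  set A := univ.filter (fun p : Fin n × Fin n => p.1 < p.2 ∧ s p.1 = s p.2) with hA
  set T := univ.filter (fun i : Fin n => s i = true) with hT
  set F := univ.filter (fun i : Fin n => s i = false) with hF
  have hpq : T.card + F.card = n := by
    have h := Finset.card_filter_add_card_filter_not (s := (univ : Finset (Fin n)))
      (fun i => s i = true)
    simpa [hT, hF] using h
  have hswap : (univ.filter (fun p : Fin n × Fin n => p.2 < p.1 ∧ s p.1 = s p.2)).card =
      A.card := by
    refine Finset.card_bij' (fun p _ => (p.2, p.1)) (fun p _ => (p.2, p.1)) ?_ ?_ ?_ ?_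
    · intro p hp
      simp only [hA, mem_filter, mem_univ, true_and] at hp ⊢
      exact ⟨hp.1, hp.2.symm⟩
    · intro p hp
      simp only [hA, mem_filter, mem_univ, true_and] at hp ⊢
      exact ⟨hp.1, hp.2.symm⟩
    · intro p _; rfl
    · intro p _; rfl
  have hdiag : (univ.filter (fun p : Fin n × Fin n => p.1 = p.2)).card = n := by
    have : (univ.filter (fun p : Fin n × Fin n => p.1 = p.2)) = (univ : Finset (Fin n)).diag := by
      ext p; simp [Finset.mem_diag]
    rw [this, Finset.diag_card, card_univ, Fintype.card_fin]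
  have hall : (univ.filter (fun p : Fin n × Fin n => s p.1 = s p.2)).card =
      T.card * T.card + F.card * F.card := by
    have : (univ.filter (fun p : Fin n × Fin n => s p.1 = s p.2)) = T ×ˢ T ∪ F ×ˢ F := by
      ext p
      simp only [hT, hF, mem_filter, mem_univ, true_and, mem_union, mem_product]
      cases s p.1 <;> cases s p.2 <;> simp
    rw [this, card_union_of_disjoint, card_product, card_product]
    rw [Finset.disjoint_left]
    intro p hp hp'
    simp only [hT, hF, mem_filter, mem_univ, true_and, mem_product] at hp hp'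
    simp [hp.1] at hp'
  have hsum : (univ.filter (fun p : Fin n × Fin n => s p.1 = s p.2)).card =
      A.card + A.card + n := by
    have : (univ.filter (fun p : Fin n × Fin n => s p.1 = s p.2)) =
        (A ∪ (univ.filter (fun p : Fin n × Fin n => p.2 < p.1 ∧ s p.1 = s p.2))) ∪
        (univ.filter (fun p : Fin n × Fin n => p.1 = p.2)) := by
      ext p
      simp only [hA, mem_filter, mem_univ, true_and, mem_union]
      constructor
      · intro h
        rcases lt_trichotomy p.1 p.2 with h1 | h1 | h1
        · exact Or.inl (Or.inl ⟨h1, h⟩)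
        · exact Or.inr h1
        · exact Or.inl (Or.inr ⟨h1, h⟩)
      · rintro ((h | h) | h)
        · exact h.2
        · exact h.2
        · rw [h]
    rw [this, card_union_of_disjoint, card_union_of_disjoint, hswap, hdiag]
    · rw [Finset.disjoint_left]
      intro p hp hp'
      simp only [hA, mem_filter, mem_univ, true_and] at hp hp'
      exact absurd (hp.1.trans hp'.1) (lt_irrefl _)
    · rw [Finset.disjoint_left]
      intro p hp hp'
      simp only [hA, mem_filter, mem_univ, true_and, mem_union] at hp hp'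
      rcases hp with h | h
      · exact absurd hp' (ne_of_lt h.1)
      · exact absurd hp' (ne_of_gt h.1)
  rw [hsum] at hall
  generalize A.card = a at *
  generalize T.card = p at *
  generalize F.card = q at *
  subst hpq
  rcases Nat.even_or_odd' (p + q) with ⟨k, hk | hk⟩
  · rw [hk, show 2 * k / 2 = k by omega, show (2 * k - 1) / 2 = k - 1 by omega]
    rcases Nat.eq_zero_or_pos k with h0 | h0
    · subst h0; simp
    · obtain ⟨j, rfl⟩ : ∃ j, k = j + 1 := ⟨k - 1, by omega⟩
      rw [show j + 1 - 1 = j by omega]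
      zify at *
      have h1 : (q : ℤ) = 2 * (j + 1) - p := by linarith
      have h3 : (a : ℤ) + a + (p + q) = p * p + q * q := hall
      rw [h1] at h3
      nlinarith [sq_nonneg ((p : ℤ) - (j + 1))]
  · rw [hk, show (2 * k + 1) / 2 = k by omega, show (2 * k + 1 - 1) / 2 = k by omega]
    zify at *
    have h1 : (q : ℤ) = 2 * k + 1 - p := by linarith
    have h3 : (a : ℤ) + a + (p + q) = p * p + q * q := hall
    rw [h1] at h3
    have h2 : 0 ≤ ((p : ℤ) - k) * ((p : ℤ) - k - 1) := by
      rcases le_or_gt (p : ℤ) k with h | h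
      · nlinarith
      · exact mul_nonneg (by linarith) (by linarith)
    nlinarith

theorem integral_abs_col_sub (a c : ℝ) :
    ∫ t in (0:ℝ)..1, |((col c t : ℤ) : ℝ) - ((col a t : ℤ) : ℝ)| = 2 * |c - a| := by
  rcases le_total a c with h | h
  · rw [abs_of_nonneg (by linarith : 0 ≤ c - a), ← integral_col_sub a c]
    congr 1
    funext t
    apply abs_of_nonneg
    have h1 : col a t ≤ col c t := Int.floor_mono (by linarith)
    have h2 : ((col a t : ℤ) : ℝ) ≤ ((col c t : ℤ) : ℝ) := by exact_mod_cast h1
    linarith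
  · rw [abs_of_nonpos (by linarith : c - a ≤ 0), show 2 * -(c - a) = 2 * (a - c) by ring,
      ← integral_col_sub c a]
    congr 1
    funext t
    have h1 : col c t ≤ col a t := Int.floor_mono (by linarith)
    have h2 : ((col c t : ℤ) : ℝ) ≤ ((col a t : ℤ) : ℝ) := by exact_mod_cast h1
    rw [abs_of_nonpos (by linarith)]
    ring

/-- Points of the circle `ℝ / ℤ`: the distances of the pairs from being antipodal add up to at
least half the minimal number of monochromatic pairs. -/
theorem circle_pairs {n : ℕ} (a : Fin n → ℝ) (q : Fin n → Fin n → ℤ) :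
    (((n / 2) * ((n - 1) / 2) : ℕ) : ℝ) ≤
      ∑ p ∈ univ.filter (fun p : Fin n × Fin n => p.1 < p.2),
        2 * |a p.1 - (a p.2 + 1 / 2 + q p.1 p.2)| := by
  classical
  set P := univ.filter (fun p : Fin n × Fin n => p.1 < p.2) with hP
  have hpt : ∀ t : ℝ, (((n / 2) * ((n - 1) / 2) : ℕ) : ℝ) ≤
      ∑ p ∈ P, |((col (a p.1) t : ℤ) : ℝ) - ((col (a p.2 + 1 / 2 + q p.1 p.2) t : ℤ) : ℝ)| := by
    intro t
    have h1 := mono_pairs (fun b => decide (Even (col (a b) t)))
    have h2 : (((univ.filter (fun p : Fin n × Fin n => p.1 < p.2 ∧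
        decide (Even (col (a p.1) t)) = decide (Even (col (a p.2) t)))).card : ℕ) : ℝ) =
        ∑ p ∈ P, (if decide (Even (col (a p.1) t)) = decide (Even (col (a p.2) t))
          then (1:ℝ) else 0) := by
      rw [Finset.sum_ite, Finset.sum_const_zero, add_zero, Finset.sum_const, nsmul_eq_mul,
        mul_one, hP, Finset.filter_filter]
    have h3 : (((n / 2) * ((n - 1) / 2) : ℕ) : ℝ) ≤
        (((univ.filter (fun p : Fin n × Fin n => p.1 < p.2 ∧
        decide (Even (col (a p.1) t)) = decide (Even (col (a p.2) t)))).card : ℕ) : ℝ) := by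
      exact_mod_cast h1
    rw [h2] at h3
    refine h3.trans (Finset.sum_le_sum ?_)
    intro p _
    have hc : col (a p.2 + 1 / 2 + q p.1 p.2) t = col (a p.2) t + (1 + 2 * q p.1 p.2) := by
      unfold col
      rw [show 2 * (a p.2 + 1 / 2 + (q p.1 p.2 : ℝ) - t) =
        2 * (a p.2 - t) + ((1 + 2 * q p.1 p.2 : ℤ) : ℝ) by push_cast; ring,
        Int.floor_add_intCast]
    split_ifs with h
    · have hne : col (a p.1) t - col (a p.2 + 1 / 2 + q p.1 p.2) t ≠ 0 := by
        rw [hc]
        intro h0
        have h5 : col (a p.1) t = col (a p.2) t + (1 + 2 * q p.1 p.2) := by linarith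
        rw [decide_eq_decide, h5] at h
        rw [Int.even_add] at h
        have h6 : ¬ Even (1 + 2 * q p.1 p.2) := by
          rw [Int.not_even_iff_odd]
          exact ⟨q p.1 p.2, by ring⟩
        tauto
      have h7 : 1 ≤ |col (a p.1) t - col (a p.2 + 1 / 2 + q p.1 p.2) t| :=
        Int.one_le_abs hne
      exact_mod_cast h7
    · exact abs_nonneg _
  have hint : ∀ p : Fin n × Fin n, IntervalIntegrable (fun t => |((col (a p.1) t : ℤ) : ℝ) -
      ((col (a p.2 + 1 / 2 + q p.1 p.2) t : ℤ) : ℝ)|) volume 0 1 := fun p =>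
    ((intervalIntegrable_col _ 0 1).sub (intervalIntegrable_col _ 0 1)).abs
  calc (((n / 2) * ((n - 1) / 2) : ℕ) : ℝ)
      = ∫ _t in (0:ℝ)..1, (((n / 2) * ((n - 1) / 2) : ℕ) : ℝ) := by simp
    _ ≤ ∫ t in (0:ℝ)..1, ∑ p ∈ P, |((col (a p.1) t : ℤ) : ℝ) -
          ((col (a p.2 + 1 / 2 + q p.1 p.2) t : ℤ) : ℝ)| := by
        apply intervalIntegral.integral_mono (by norm_num) (by simp)
        · have h8 := IntervalIntegrable.sum (μ := volume) (a := (0:ℝ)) (b := 1) P
            (fun p _ => hint p)
          have h9 : (fun t => ∑ p ∈ P, |((col (a p.1) t : ℤ) : ℝ) -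
              ((col (a p.2 + 1 / 2 + q p.1 p.2) t : ℤ) : ℝ)|) =
              ∑ p ∈ P, fun t => |((col (a p.1) t : ℤ) : ℝ) -
              ((col (a p.2 + 1 / 2 + q p.1 p.2) t : ℤ) : ℝ)| := by
            funext t
            rw [Finset.sum_apply]
          rw [h9]
          exact h8
        · intro t
          exact hpt t
    _ = ∑ p ∈ P, ∫ t in (0:ℝ)..1, |((col (a p.1) t : ℤ) : ℝ) -
          ((col (a p.2 + 1 / 2 + q p.1 p.2) t : ℤ) : ℝ)| :=
        intervalIntegral.integral_finsetSum (fun p _ => hint p)
    _ = ∑ p ∈ P, 2 * |a p.1 - (a p.2 + 1 / 2 + q p.1 p.2)| := by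
        apply Finset.sum_congr rfl
        intro p _
        rw [integral_abs_col_sub]

/-- **The static end.**  Potentials `F z b` (real representatives) with half period `T z`,
weights `w z`: if the weighted distances from being antipodal are at most `N b k`, the sum of
the `N b k` is at least `(∑ w T) ⌊n/2⌋ ⌊(n-1)/2⌋`. -/
theorem static_end {n : ℕ} {Z : Type*} [Fintype Z] (w T : Z → ℝ) (hw : ∀ z, 0 ≤ w z)
    (hT : ∀ z, 0 < T z) (F : Z → Fin n → ℝ) (N : Fin n → Fin n → ℝ)
    (h : ∀ b k, b < k → ∃ q : Z → ℤ,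
      ∑ z, w z * |F z b - F z k - T z - 2 * T z * q z| ≤ N b k) :
    (∑ z, w z * T z) * (((n / 2) * ((n - 1) / 2) : ℕ) : ℝ) ≤
      ∑ p ∈ univ.filter (fun p : Fin n × Fin n => p.1 < p.2), N p.1 p.2 := by
  classical
  have h' : ∀ b k, ∃ q : Z → ℤ, b < k →
      ∑ z, w z * |F z b - F z k - T z - 2 * T z * q z| ≤ N b k := by
    intro b k
    by_cases hbk : b < k
    · obtain ⟨q, hq⟩ := h b k hbk
      exact ⟨q, fun _ => hq⟩
    · exact ⟨0, fun h => absurd h hbk⟩
  choose q hq using h'
  have hz : ∀ z, w z * T z * (((n / 2) * ((n - 1) / 2) : ℕ) : ℝ) ≤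
      ∑ p ∈ univ.filter (fun p : Fin n × Fin n => p.1 < p.2),
        w z * |F z p.1 - F z p.2 - T z - 2 * T z * q p.1 p.2 z| := by
    intro z
    have h1 := circle_pairs (fun b => F z b / (2 * T z)) (fun b k => q b k z)
    have hTz := hT z
    calc w z * T z * (((n / 2) * ((n - 1) / 2) : ℕ) : ℝ)
        ≤ w z * T z * ∑ p ∈ univ.filter (fun p : Fin n × Fin n => p.1 < p.2),
          2 * |F z p.1 / (2 * T z) - (F z p.2 / (2 * T z) + 1 / 2 + q p.1 p.2 z)| :=
          mul_le_mul_of_nonneg_left h1 (mul_nonneg (hw z) hTz.le)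
      _ = ∑ p ∈ univ.filter (fun p : Fin n × Fin n => p.1 < p.2),
        w z * |F z p.1 - F z p.2 - T z - 2 * T z * q p.1 p.2 z| := by
          rw [Finset.mul_sum]
          apply Finset.sum_congr rfl
          intro p _
          have e : F z p.1 / (2 * T z) - (F z p.2 / (2 * T z) + 1 / 2 + q p.1 p.2 z) =
            (F z p.1 - F z p.2 - T z - 2 * T z * q p.1 p.2 z) / (2 * T z) := by
            field_simp
            ring
          rw [e, abs_div, abs_of_pos (by linarith : (0:ℝ) < 2 * T z)]
          field_simp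
  calc (∑ z, w z * T z) * (((n / 2) * ((n - 1) / 2) : ℕ) : ℝ)
      = ∑ z, w z * T z * (((n / 2) * ((n - 1) / 2) : ℕ) : ℝ) := by rw [Finset.sum_mul]
    _ ≤ ∑ z, ∑ p ∈ univ.filter (fun p : Fin n × Fin n => p.1 < p.2),
        w z * |F z p.1 - F z p.2 - T z - 2 * T z * q p.1 p.2 z| :=
        Finset.sum_le_sum fun z _ => hz z
    _ = ∑ p ∈ univ.filter (fun p : Fin n × Fin n => p.1 < p.2), ∑ z,
        w z * |F z p.1 - F z p.2 - T z - 2 * T z * q p.1 p.2 z| := Finset.sum_comm
    _ ≤ ∑ p ∈ univ.filter (fun p : Fin n × Fin n => p.1 < p.2), N p.1 p.2 := by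
        apply Finset.sum_le_sum
        intro p hp
        simp only [mem_filter, mem_univ, true_and] at hp
        exact hq p.1 p.2 hp

end Vale.Agent.P040.H45
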