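import Vale.Agent.P040.Gen.Uncross
import Vale.Agent.P040.Gen.Star
import Vale.Agent.P040.H45.Static

/-!
# Zarankiewicz for `m n` even from potentials
-/

namespace Vale.Agent.P040

open Finset

namespace Drawing

/-- no two edges with a common end cross -/
def Unc {V : Type} {G : SimpleGraph V} (D : Drawing G) : Prop :=
  ∀ v a b, G.Adj v a → G.Adj v b → a ≠ b → ∀ p ∈ D.arc s(v, a), p ∈ D.arc s(v, b) → p = D.pos v

/-- the number of crossings of the stars of `b` and `k` -/
noncomputable def starCr {m n : ℕ} (D : Drawing (K m n)) (b k : Fin m) : ℕ :=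
  ∑ q ∈ univ.filter (fun q : Fin n × Fin n => q.1 ≠ q.2),
    (D.arc s(Sum.inl b, Sum.inr q.1) ∩ D.arc s(Sum.inl k, Sum.inr q.2)).ncard

end Drawing

/-- **The interface**: a drawing of `K_{m,2h}` has potentials if there are `F z b`
(`z` a leaf, `b` a star), to be read modulo `h - 1`, such that for any two stars the sum over the
leaves of the distances from being antipodal is at most the number of crossings of the stars. -/
def HasPotentials {m h : ℕ} (D : Drawing (K m (2 * h))) : Prop :=
  ∃ F : Fin (2 * h) → Fin m → ℝ, ∀ b k, b < k → ∃ q : Fin (2 * h) → ℤ,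
    ∑ z, |F z b - F z k - ((h : ℝ) - 1) / 2 - ((h : ℝ) - 1) * q z| ≤ D.starCr b k

theorem zar_comm (m n : ℕ) : zar m n = zar n m := by
  unfold zar; ring

theorem crossings_ge {m h : ℕ} (hh : 2 ≤ h) (D : Drawing (K m (2 * h))) (hD : HasPotentials D) :
    zar m (2 * h) ≤ D.crossings := by
  obtain ⟨F, hF⟩ := hD
  have hh' : (2 : ℝ) ≤ h := by exact_mod_cast hh
  have h1 := H45.static_end (n := m) (Z := Fin (2 * h)) (fun _ => 1)
    (fun _ => ((h : ℝ) - 1) / 2) (fun _ => zero_le_one) (fun _ => by linarith) F
    (fun b k => (D.starCr b k : ℝ)) (by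
      intro b k hbk
      obtain ⟨q, hq⟩ := hF b k hbk
      refine ⟨q, le_trans (le_of_eq ?_) hq⟩
      apply Finset.sum_congr rfl
      intro z _
      rw [one_mul]
      congr 1
      ring)
  have h2 : (∑ p ∈ univ.filter (fun p : Fin m × Fin m => p.1 < p.2), D.starCr p.1 p.2) ≤
      D.crossings := Gen.sum_pairs_le D
  have h3 : (∑ z : Fin (2 * h), (1 : ℝ) * (((h : ℝ) - 1) / 2)) = h * (h - 1) := by
    rw [Finset.sum_const, card_univ, Fintype.card_fin, nsmul_eq_mul]
    push_cast
    ring
  rw [h3] at h1
  have h4 : ((∑ p ∈ univ.filter (fun p : Fin m × Fin m => p.1 < p.2),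
      D.starCr p.1 p.2 : ℕ) : ℝ) ≤ (D.crossings : ℝ) := by exact_mod_cast h2
  push_cast at h4
  have h5 : (zar m (2 * h) : ℝ) = (h : ℝ) * (h - 1) * (((m / 2) * ((m - 1) / 2) : ℕ) : ℝ) := by
    unfold zar
    rw [show 2 * h / 2 = h by omega, show (2 * h - 1) / 2 = h - 1 by omega]
    push_cast [Nat.cast_sub (show 1 ≤ h by omega)]
    ring
  have h6 : (zar m (2 * h) : ℝ) ≤ (D.crossings : ℝ) := by
    rw [h5]
    exact h1.trans h4
  exact_mod_cast h6

theorem even_right {m h : ℕ} (H : 2 ≤ h → ∀ D : Drawing (K m (2 * h)), D.Unc → HasPotentials D)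
    (D : Drawing (K m (2 * h))) : zar m (2 * h) ≤ D.crossings := by
  rcases Nat.lt_or_ge h 2 with hh | hh
  · have : zar m (2 * h) = 0 := by
      unfold zar
      rw [show 2 * h / 2 = h by omega, show (2 * h - 1) / 2 = h - 1 by omega]
      have : h = 0 ∨ h = 1 := by omega
      rcases this with rfl | rfl <;> simp
    omega
  · obtain ⟨D', h1, h2⟩ := D.uncross_gen
    exact (crossings_ge hh D' (H hh D' h2)).trans h1

namespace Drawing

variable {m n : ℕ}

theorem map_swap_mem {e : Sym2 (Fin n ⊕ Fin m)} (he : e ∈ (K n m).edgeSet) :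
    e.map Sum.swap ∈ (K m n).edgeSet := by
  induction e using Sym2.ind with
  | _ u v =>
    rw [Sym2.map_mk]
    rw [SimpleGraph.mem_edgeSet] at he ⊢
    rcases u with u | u <;> rcases v with v | v <;> simp_all

theorem map_swap_inj : Function.Injective (Sym2.map (Sum.swap : Fin n ⊕ Fin m → Fin m ⊕ Fin n)) :=
  Sym2.map.injective (Equiv.sumComm _ _).injective

/-- the drawing of `K_{n,m}` given by a drawing of `K_{m,n}` -/
def swap (D : Drawing (K m n)) : Drawing (K n m) where
  pos v := D.pos v.swap
  pos_inj := D.pos_inj.comp (Equiv.sumComm _ _).injective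
  arc e := D.arc (e.map Sum.swap)
  isArc := by
    intro u v huv
    have h : (K m n).Adj u.swap v.swap := by
      rcases u with u | u <;> rcases v with v | v <;> simp_all
    simpa using D.isArc _ _ h
  avoid := by
    intro e he w hw
    have h := D.avoid _ (map_swap_mem he) _ hw
    rw [Sym2.mem_map] at h
    obtain ⟨a, ha, haw⟩ := h
    rwa [← (Equiv.sumComm _ _).injective haw]
  finite := by
    intro e he f hf hef
    have hr : Set.range (fun v : Fin n ⊕ Fin m => D.pos v.swap) = Set.range D.pos :=
      (Equiv.sumComm _ _).surjective.range_comp D.pos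
    rw [hr]
    exact D.finite _ (map_swap_mem he) _ (map_swap_mem hf) (fun h => hef (map_swap_inj h))
  proper := by
    intro e he f hf hef
    have hr : Set.range (fun v : Fin n ⊕ Fin m => D.pos v.swap) = Set.range D.pos :=
      (Equiv.sumComm _ _).surjective.range_comp D.pos
    rw [hr]
    exact D.proper _ (map_swap_mem he) _ (map_swap_mem hf) (fun h => hef (map_swap_inj h))
  two := by
    intro e he f hf g hg hef heg hfg x hx
    have hr : Set.range (fun v : Fin n ⊕ Fin m => D.pos v.swap) = Set.range D.pos :=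
      (Equiv.sumComm _ _).surjective.range_comp D.pos
    rw [hr] at hx
    exact D.two _ (map_swap_mem he) _ (map_swap_mem hf) _ (map_swap_mem hg)
      (fun h => hef (map_swap_inj h)) (fun h => heg (map_swap_inj h))
      (fun h => hfg (map_swap_inj h)) x hx

theorem swap_crossings (D : Drawing (K m n)) : D.swap.crossings = D.crossings := by
  unfold crossings
  congr 1
  ext x
  have hr : Set.range D.swap.pos = Set.range D.pos :=
    (Equiv.sumComm _ _).surjective.range_comp D.pos
  unfold crossingSet
  simp only [Set.mem_ofPred_eq, hr]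
  constructor
  · rintro ⟨h0, e, he, f, hf, hef, h1, h2⟩
    exact ⟨h0, _, map_swap_mem he, _, map_swap_mem hf, fun h => hef (map_swap_inj h), h1, h2⟩
  · rintro ⟨h0, e, he, f, hf, hef, h1, h2⟩
    have key : ∀ e : Sym2 (Fin m ⊕ Fin n), (e.map Sum.swap).map Sum.swap = e := by
      intro e
      induction e using Sym2.ind with
      | _ u v => simp
    refine ⟨h0, _, map_swap_mem he, _, map_swap_mem hf, fun h => hef (map_swap_inj h), ?_, ?_⟩
    · show x ∈ D.arc ((e.map Sum.swap).map Sum.swap)
      rwa [key]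
    · show x ∈ D.arc ((f.map Sum.swap).map Sum.swap)
      rwa [key]

end Drawing

/-- **Zarankiewicz for `m n` even**, from potentials for uncrossed drawings. -/
theorem even_of_potentials
    (H : ∀ m h : ℕ, 2 ≤ h → ∀ D : Drawing (K m (2 * h)), D.Unc → HasPotentials D)
    {m n : ℕ} (hmn : Even (m * n)) (D : Drawing (K m n)) : zar m n ≤ D.crossings := by
  rw [Nat.even_mul] at hmn
  rcases hmn with h | h
  · obtain ⟨r, rfl⟩ := h.two_dvd
    rw [zar_comm, ← D.swap_crossings]
    exact even_right (fun hh => H n r hh) D.swap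
  · obtain ⟨r, rfl⟩ := h.two_dvd
    exact even_right (fun hh => H m r hh) D

end Vale.Agent.P040
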