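import Vale.Agent.P040.H45.Zc

/-!
# The crossing words of the arms of a star with another star, and their lengths
-/

set_option autoImplicit false

namespace Vale.Agent.P040.H45

open Finset H177 Bp Topo

variable {m : ℕ} {leaf : Fin m → ℝ}

/-- The crossing word of the first `n` pieces of the arm `x` of `k` with the star `b`. -/
noncomputable def aw (b k : SStar leaf) (x : Fin m) : ℕ → FreeGroup (Fin m)
  | 0 => 1
  | n + 1 => aw b k x n * ((H b ((k.arm x).page n) ((k.arm x).p n))⁻¹ *
      H b ((k.arm x).page n) ((k.arm x).p (n + 1)))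

/-- The word `A_x` of the arm `x` of `k` with respect to `b`. -/
noncomputable def A (b k : SStar leaf) (x : Fin m) : FreeGroup (Fin m) := aw b k x (k.arm x).len

/-- The `Z`-word of the points `1, …, n` of the arm `x` of `k`. -/
noncomputable def zw (b k : SStar leaf) (x : Fin m) : ℕ → FreeGroup (Fin m)
  | 0 => 1
  | n + 1 => zw b k x n * (if (k.arm x).page n = true then Z b ((k.arm x).p (n + 1))
      else (Z b ((k.arm x).p (n + 1)))⁻¹)

/-- Telescoping. -/
theorem aw_succ (b k : SStar leaf) (x : Fin m) (n : ℕ) :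
    aw b k x (n + 1) = (H b ((k.arm x).page 0) ((k.arm x).p 0))⁻¹ * zw b k x n *
      H b ((k.arm x).page n) ((k.arm x).p (n + 1)) := by
  induction n with
  | zero => simp [aw, zw]
  | succ n ih =>
    rw [aw, ih, zw, page_succ]
    cases h : (k.arm x).page n
    · simp only [Bool.not_false, Bool.false_eq_true, if_false, Z]
      group
    · simp only [Bool.not_true, if_true, Z]
      group

theorem A_eq (b k : SStar leaf) (x : Fin m) :
    A b k x = (H b ((k.arm x).page 0) k.ctr)⁻¹ * zw b k x ((k.arm x).len - 1) *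
      H b ((k.arm x).page ((k.arm x).len - 1)) (leaf x) := by
  have hlp := (k.arm x).len_pos
  unfold A
  conv_lhs => rw [show (k.arm x).len = (k.arm x).len - 1 + 1 by omega]
  rw [aw_succ, show (k.arm x).len - 1 + 1 = (k.arm x).len by omega, k.arm_last, k.arm_zero]

theorem gp_notMem {b k : SStar leaf} (h : b.GP k) (x : Fin m) {j : ℕ} (hj : j < (k.arm x).len) :
    (k.arm x).p j ∉ pts b := by
  rintro ⟨y, i, hi, h1⟩
  have := (h y i x j hi hj.le h1.symm).2.2
  omega

theorem sep_inter {a b p q : ℝ} (hpa : p ≠ a) (hpb : p ≠ b) (hqa : q ≠ a) (hqb : q ≠ b)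
    (h : ¬ (Ins (a, b) p ↔ Ins (a, b) q)) : Topo.Inter p q a b := by
  have key : ∀ p q : ℝ, p ≠ a → p ≠ b → q ≠ a → q ≠ b → Ins (a, b) p → ¬ Ins (a, b) q →
      Topo.Inter p q a b := by
    intro p q _ _ hqa hqb hp hq
    unfold Ins at hp hq
    simp only at hp hq
    have hq1 : q ≠ min a b := by rcases min_choice a b with h | h <;> rw [h] <;> assumption
    have hq2 : q ≠ max a b := by rcases max_choice a b with h | h <;> rw [h] <;> assumption
    unfold Topo.Inter
    rcases lt_or_ge q (min a b) with h1 | h1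
    · left
      have hqp : q ≤ p := by linarith [hp.1]
      rw [min_eq_right (a := p) (b := q) hqp, max_eq_left (a := p) (b := q) hqp]
      exact ⟨h1, hp.1, hp.2⟩
    · right
      have h2 : min a b < q := lt_of_le_of_ne h1 (Ne.symm hq1)
      have h3 : max a b < q := by
        by_contra h4
        exact hq ⟨h2, lt_of_le_of_ne (not_lt.1 h4) hq2⟩
      have hqp : p ≤ q := by linarith [hp.2]
      rw [min_eq_left (a := p) (b := q) hqp, max_eq_right (a := p) (b := q) hqp]
      exact ⟨hp.1, hp.2, h3⟩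
  by_cases h1 : Ins (a, b) p
  · exact key p q hpa hpb hqa hqb h1 (fun h2 => h ⟨fun _ => h2, fun _ => h1⟩)
  · have h2 : Ins (a, b) q := by
      by_contra h3
      exact h ⟨fun h4 => absurd h4 h1, fun h4 => absurd h4 h3⟩
    have h3 := key q p hqa hqb hpa hpb h2 h1
    unfold Topo.Inter at h3 ⊢
    rwa [min_comm, max_comm] at h3

open Classical in
/-- The pieces of `b` which interleave piece `j` of the arm `x` of `k`. -/
noncomputable def hits (b k : SStar leaf) (x : Fin m) (j : ℕ) : Finset (Fin m × ℕ) :=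
  (pieces b ((k.arm x).page j)).filter (fun i => (k.arm x).Hit (b.arm i.1) j i.2)

theorem len_piece {b k : SStar leaf} (hgp : b.GP k) (x : Fin m) {j : ℕ}
    (hj : j + 1 < (k.arm x).len) :
    ((H b ((k.arm x).page j) ((k.arm x).p j))⁻¹ *
      H b ((k.arm x).page j) ((k.arm x).p (j + 1))).norm ≤ (hits b k x j).card := by
  classical
  apply H_norm
  · exact Finset.filter_subset _ _
  · intro i hi hsep
    unfold hits
    rw [Finset.mem_filter]
    refine ⟨hi, ?_⟩
    rw [mem_pieces] at hi
    refine ⟨hi.2.symm, ?_⟩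
    have n1 := gp_notMem hgp x (j := j) (by omega)
    have n2 := gp_notMem hgp x hj
    have m1 := mem_pts b i.1 (i := i.2) (by omega)
    have m2 := mem_pts b i.1 (i := i.2 + 1) (by omega)
    exact sep_inter (fun h => n1 (h ▸ m1)) (fun h => n1 (h ▸ m2)) (fun h => n2 (h ▸ m1))
      (fun h => n2 (h ▸ m2)) hsep

theorem len_last {b k : SStar leaf} (hgp : b.GP k) (x : Fin m) {j : ℕ}
    (hj : j + 1 = (k.arm x).len) :
    ∃ e : ℤ, ((H b ((k.arm x).page j) ((k.arm x).p j))⁻¹ *
      H b ((k.arm x).page j) ((k.arm x).p (j + 1)) * (FreeGroup.of x) ^ e).norm ≤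
        (hits b k x j).card := by
  classical
  have hleaf : (k.arm x).p (j + 1) = leaf x := by rw [hj, k.arm_last]
  have n1 := gp_notMem hgp x (j := j) (by omega)
  obtain ⟨l, t, hl, ht, nl, nt, -, -⟩ := exists_nears (finite_pts b) (leaf x)
  have hlp := (b.arm x).len_pos
  have hblast : (b.arm x).p ((b.arm x).len - 1 + 1) = leaf x := by
    rw [show (b.arm x).len - 1 + 1 = (b.arm x).len by omega, b.arm_last]
  -- choose the side
  have hside : ∃ q, Near (pts b) q (leaf x) ∧ q ≠ leaf x ∧
      (Ins (ends b (x, (b.arm x).len - 1)) q ↔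
        Ins (ends b (x, (b.arm x).len - 1)) ((k.arm x).p j)) := by
    have hm : (b.arm x).p ((b.arm x).len - 1) ∈ pts b := mem_pts b x (by omega)
    have hne : (b.arm x).p ((b.arm x).len - 1) ≠ leaf x := by
      rw [← b.arm_last x]
      intro h
      rcases b.inj x _ x _ (by omega) le_rfl h with ⟨-, h4⟩ | ⟨-, h4⟩ <;> omega
    have i1 : Ins (ends b (x, (b.arm x).len - 1)) l ↔
        (b.arm x).p ((b.arm x).len - 1) < leaf x := by
      unfold ends
      simp only
      rw [hblast, ins_comm]
      exact nl.ins_lt hm hne hl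
    have i2 : Ins (ends b (x, (b.arm x).len - 1)) t ↔
        leaf x < (b.arm x).p ((b.arm x).len - 1) := by
      unfold ends
      simp only
      rw [hblast, ins_comm]
      exact nt.ins_gt hm hne ht
    by_cases hp : Ins (ends b (x, (b.arm x).len - 1)) ((k.arm x).p j)
    · rcases lt_or_gt_of_ne hne with h | h
      · exact ⟨l, nl, hl.ne, ⟨fun _ => hp, fun _ => i1.2 h⟩⟩
      · exact ⟨t, nt, ht.ne', ⟨fun _ => hp, fun _ => i2.2 h⟩⟩
    · rcases lt_or_gt_of_ne hne with h | h
      · exact ⟨t, nt, ht.ne', ⟨fun h' => absurd (i2.1 h') (not_lt.2 h.le), fun h' => absurd h' hp⟩⟩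
      · exact ⟨l, nl, hl.ne, ⟨fun h' => absurd (i1.1 h') (not_lt.2 h.le), fun h' => absurd h' hp⟩⟩
  obtain ⟨q, hq, hqne, hqs⟩ := hside
  obtain ⟨e, he⟩ := H_leaf b x ((k.arm x).page j) hq hqne
  refine ⟨e, ?_⟩
  rw [hleaf, mul_assoc, ← he]
  apply H_norm
  · exact Finset.filter_subset _ _
  · intro i hi hsep
    unfold hits
    rw [Finset.mem_filter]
    refine ⟨hi, ?_⟩
    rw [mem_pieces] at hi
    refine ⟨hi.2.symm, ?_⟩
    have m1 := mem_pts b i.1 (i := i.2) (by omega)
    have m2 := mem_pts b i.1 (i := i.2 + 1) (by omega)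
    have hne1 : (b.arm i.1).p i.2 ≠ leaf x := by
      intro h
      rw [← b.arm_last x] at h
      rcases b.inj i.1 i.2 x _ (by omega) le_rfl h with ⟨h3, h4⟩ | ⟨-, h4⟩
      · rw [h3] at hi; omega
      · omega
    have hne2 : (b.arm i.1).p (i.2 + 1) ≠ leaf x := by
      intro h
      rw [← b.arm_last x] at h
      rcases b.inj i.1 (i.2 + 1) x _ (by omega) le_rfl h with ⟨h3, h4⟩ | ⟨-, h4⟩
      · have h5 : i = (x, (b.arm x).len - 1) := Prod.ext h3 (by
          show i.2 = (b.arm x).len - 1
          omega)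
        rw [h5] at hsep
        exact hsep hqs.symm
      · omega
    rw [hleaf]
    refine sep_inter (fun h => n1 (h ▸ m1)) (fun h => n1 (h ▸ m2)) (Ne.symm hne1) (Ne.symm hne2) ?_
    intro h
    exact hsep (h.trans (hq.ins m1 m2 hne1 hne2).symm)

theorem sum_hits_le (b k : SStar leaf) (x : Fin m) :
    ∑ j ∈ Finset.range (k.arm x).len, (hits b k x j).card ≤ ∑ y, (k.arm x).cr (b.arm y) := by
  classical
  unfold Arm.cr
  rw [← Finset.card_sigma, ← Finset.card_sigma]
  refine Finset.card_le_card_of_injOn (fun q => (⟨q.2.1, (q.1, q.2.2)⟩ : (_ : Fin m) × (ℕ × ℕ)))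
    ?_ ?_
  · rintro ⟨j, y, i⟩ hq
    simp only [Finset.coe_sigma, Set.mem_sigma_iff, Finset.mem_coe, Finset.mem_range, hits,
      Finset.mem_filter, mem_pieces] at hq
    simp only [Finset.coe_sigma, Set.mem_sigma_iff, Finset.mem_coe, Finset.mem_univ, true_and,
      Finset.mem_filter, Finset.mem_product, Finset.mem_range]
    exact ⟨⟨hq.1, hq.2.1.1⟩, hq.2.2⟩
  · rintro ⟨j, y, i⟩ _ ⟨j', y', i'⟩ _ h
    simp only [Sigma.mk.injEq, heq_eq_eq, Prod.mk.injEq] at h
    obtain ⟨h1, h2, h3⟩ := h
    subst h1 h2 h3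
    rfl

/-- **The length of the crossing word**: it is at most the number of crossings, up to a power of
the letter of the leaf at the end. -/
theorem len_A {b k : SStar leaf} (hgp : b.GP k) (x : Fin m) :
    ∃ e : ℤ, (A b k x * (FreeGroup.of x) ^ e).norm ≤ ∑ y, (k.arm x).cr (b.arm y) := by
  classical
  have hlp := (k.arm x).len_pos
  have h1 : ∀ n < (k.arm x).len, (aw b k x n).norm ≤ ∑ j ∈ Finset.range n, (hits b k x j).card := by
    intro n
    induction n with
    | zero => intro _; simp [aw]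
    | succ n ih =>
      intro hn
      rw [aw, Finset.sum_range_succ]
      refine (FreeGroup.norm_mul_le _ _).trans ?_
      exact add_le_add (ih (by omega)) (len_piece hgp x hn)
  obtain ⟨n, hn⟩ : ∃ n, n + 1 = (k.arm x).len := ⟨(k.arm x).len - 1, by omega⟩
  obtain ⟨e, he⟩ := len_last hgp x hn
  refine ⟨e, ?_⟩
  refine le_trans ?_ (sum_hits_le b k x)
  unfold A
  rw [← hn, aw, Finset.sum_range_succ, mul_assoc]
  refine (FreeGroup.norm_mul_le _ _).trans ?_
  exact add_le_add (h1 n (by omega)) he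

end Vale.Agent.P040.H45
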