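import Mathlib
import Vale.Agent.P040.H177.StarTree
import Vale.Agent.P040.Bp.SStar

/-!
# Nested arcs of one page: the crossing word to a point of the spine
-/

set_option autoImplicit false

namespace Vale.Agent.P040.H45

open Finset H177

/-- Not interleaving (as pairs). -/
def NC2 (e f : ℝ × ℝ) : Prop := ¬ Topo.Inter e.1 e.2 f.1 f.2

theorem no_sep {e f : ℝ × ℝ} (h : NC2 e f)
    (hw : max e.1 e.2 - min e.1 e.2 ≤ max f.1 f.2 - min f.1 f.2) {p q : ℝ}
    (hp : Ins e p) (hq : Ins e q) : Ins f p ↔ Ins f q := by
  have key : ∀ p q, Ins e p → Ins e q → Ins f p → Ins f q := by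
    intro p q hp hq hfp
    by_contra hfq
    unfold NC2 Topo.Inter at h
    unfold Ins at *
    push Not at h hfq
    obtain ⟨h1, h2⟩ := h
    rcases le_or_gt q (min f.1 f.2) with h3 | h3
    · have h4 := h1 (by linarith [hq.1]) (by linarith [hp.2, hfp.1])
      linarith [hq.1]
    · have h4 := hfq h3
      rcases lt_or_ge (min f.1 f.2) (min e.1 e.2) with h5 | h5
      · have := h2 h5 (by linarith [hp.1, hfp.2])
        linarith [hq.2]
      · linarith [hq.2]
  exact ⟨key p q hp hq, key q p hq hp⟩

/-- **Nested arcs.** For a finite set of arcs of one page which do not interleave, with labels,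
there is the crossing word `H p` to the point `p`. -/
theorem nest {ι α : Type*} [DecidableEq α] (S : Finset ι) (e : ι → ℝ × ℝ) (a : ι → FreeGroup α)
    (nc : ∀ i ∈ S, ∀ j ∈ S, NC2 (e i) (e j)) (ha : ∀ i ∈ S, (a i).norm ≤ 1) :
    ∃ H : ℝ → FreeGroup α,
      (∀ p q, (∀ i ∈ S, (Ins (e i) p ↔ Ins (e i) q)) → H p = H q) ∧
      (∀ i ∈ S, ∀ p q, Ins (e i) p → ¬ Ins (e i) q →
        (∀ j ∈ S, j ≠ i → (Ins (e j) p ↔ Ins (e j) q)) → H p = H q * a i) ∧
      (∀ p q, ∀ T ⊆ S, (∀ i ∈ S, ¬ (Ins (e i) p ↔ Ins (e i) q) → i ∈ T) →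
        ((H p)⁻¹ * H q).norm ≤ T.card) := by
  classical
  induction hn : S.card generalizing S with
  | zero =>
    rw [Finset.card_eq_zero] at hn
    subst hn
    exact ⟨fun _ => 1, fun _ _ _ => rfl, by simp, by simp⟩
  | succ n ih =>
    have hne : S.Nonempty := by
      rw [← Finset.card_pos, hn]; omega
    obtain ⟨i0, hi0, hmin⟩ := Finset.exists_min_image S
      (fun i => max (e i).1 (e i).2 - min (e i).1 (e i).2) hne
    obtain ⟨H, h1, h2, h3⟩ := ih (S.erase i0)
      (fun i hi j hj => nc i (Finset.mem_of_mem_erase hi) j (Finset.mem_of_mem_erase hj))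
      (fun i hi => ha i (Finset.mem_of_mem_erase hi))
      (by rw [Finset.card_erase_of_mem hi0, hn]; rfl)
    have hsep : ∀ p q, Ins (e i0) p → Ins (e i0) q → ∀ j ∈ S, (Ins (e j) p ↔ Ins (e j) q) :=
      fun p q hp hq j hj => no_sep (nc i0 hi0 j hj) (hmin j hj) hp hq
    refine ⟨fun p => if Ins (e i0) p then H p * a i0 else H p, ?_, ?_, ?_⟩
    · intro p q hpq
      have e1 := h1 p q (fun i hi => hpq i (Finset.mem_of_mem_erase hi))
      have e2 := hpq i0 hi0
      simp only [e2, e1]
    · intro i hi p q hp hq hj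
      by_cases hii : i = i0
      · subst hii
        have e1 := h1 p q (fun j hj' => hj j (Finset.mem_of_mem_erase hj')
          (Finset.ne_of_mem_erase hj'))
        simp only [if_pos hp, if_neg hq, e1]
      · have e2 := hj i0 hi0 (Ne.symm hii)
        by_cases h5 : Ins (e i0) p
        · exact absurd ((hsep p q h5 (e2.1 h5) i hi).1 hp) hq
        · have h6 : ¬ Ins (e i0) q := fun h => h5 (e2.2 h)
          simp only [if_neg h5, if_neg h6]
          exact h2 i (Finset.mem_erase.2 ⟨hii, hi⟩) p q hp hq
            (fun j hj' hji => hj j (Finset.mem_of_mem_erase hj') hji)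
    · intro p q T hTS hT
      by_cases hp : Ins (e i0) p <;> by_cases hq : Ins (e i0) q
      · have e1 := h1 p q (fun j hj => hsep p q hp hq j (Finset.mem_of_mem_erase hj))
        simp only [if_pos hp, if_pos hq, e1]
        simp
      · have hi0T : i0 ∈ T := hT i0 hi0 (fun h => hq (h.1 hp))
        have e3 := h3 p q (T.erase i0) (Finset.erase_subset_erase _ hTS) (by
          intro i hi hs
          exact Finset.mem_erase.2 ⟨Finset.ne_of_mem_erase hi,
            hT i (Finset.mem_of_mem_erase hi) hs⟩)
        have e4 : T.card = (T.erase i0).card + 1 := by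
          rw [Finset.card_erase_of_mem hi0T]
          have := Finset.card_pos.2 ⟨i0, hi0T⟩
          omega
        simp only [if_pos hp, if_neg hq]
        rw [mul_inv_rev, mul_assoc]
        refine (FreeGroup.norm_mul_le _ _).trans ?_
        rw [FreeGroup.norm_inv_eq]
        have := ha i0 hi0
        omega
      · have hi0T : i0 ∈ T := hT i0 hi0 (fun h => hp (h.2 hq))
        have e3 := h3 p q (T.erase i0) (Finset.erase_subset_erase _ hTS) (by
          intro i hi hs
          exact Finset.mem_erase.2 ⟨Finset.ne_of_mem_erase hi,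
            hT i (Finset.mem_of_mem_erase hi) hs⟩)
        have e4 : T.card = (T.erase i0).card + 1 := by
          rw [Finset.card_erase_of_mem hi0T]
          have := Finset.card_pos.2 ⟨i0, hi0T⟩
          omega
        simp only [if_neg hp, if_pos hq]
        rw [← mul_assoc]
        refine (FreeGroup.norm_mul_le _ _).trans ?_
        have := ha i0 hi0
        omega
      · have e3 := h3 p q (T.erase i0) (Finset.erase_subset_erase _ hTS) (by
          intro i hi hs
          exact Finset.mem_erase.2 ⟨Finset.ne_of_mem_erase hi,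
            hT i (Finset.mem_of_mem_erase hi) hs⟩)
        simp only [if_neg hp, if_neg hq]
        exact e3.trans (Finset.card_le_card (Finset.erase_subset _ _))

end Vale.Agent.P040.H45
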