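import Vale.Agent.P040.H45.Len
import Vale.Agent.P040.W.Dev

/-!
# Potentials of a star up to powers of one element

`f` is a function on the copies of the spine in the two pages, locally constant on the pages minus
the star `k` up to left multiplication by powers of `δ`. The lemmas of `W.Dev` hold up to powers
of `δ`.
-/

set_option autoImplicit false

namespace Vale.Agent.P040.H45W

open Topo Bp H177 W

variable {m : ℕ} {leaf : Fin m → ℝ} {G : Type*} [Group G]

/-- equal up to a power of `δ` on the left -/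
def R (δ a c : G) : Prop := ∃ n : ℤ, a = δ ^ n * c

theorem R.refl (δ a : G) : R δ a a := ⟨0, by simp⟩

theorem R.of_eq {δ a c : G} (h : a = c) : R δ a c := h ▸ R.refl δ a

theorem R.symm {δ a c : G} (h : R δ a c) : R δ c a := by
  obtain ⟨n, rfl⟩ := h
  exact ⟨-n, by group⟩

theorem R.trans {δ a b c : G} (h : R δ a b) (h' : R δ b c) : R δ a c := by
  obtain ⟨n, rfl⟩ := h
  obtain ⟨n', rfl⟩ := h'
  exact ⟨n + n', by rw [zpow_add, mul_assoc]⟩

theorem R.mul {δ a c : G} (h : R δ a c) (d : G) : R δ (a * d) (c * d) := by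
  obtain ⟨n, rfl⟩ := h
  exact ⟨n, by rw [mul_assoc]⟩

theorem R.one {a c : G} (h : R 1 a c) : a = c := by
  obtain ⟨n, rfl⟩ := h
  simp

section

variable {k : SStar leaf} {δ : G} {ε : ℝ} {f : Bool → ℝ → G}

section

variable (h : Eps (W.pts k) ε) {P : Set ℝ} (hε : Eps P ε) (hP : W.pts k ⊆ P)
  (hf : ∀ s x y, x ∉ P → y ∉ P → NS (arcs k s) x y → R δ (f s x) (f s y))
  (mm : Fin m → G)
  (hj : ∀ x, R δ (f (k.arm x).up (lc k ε x 0)) (f (k.arm x).up (rc k ε x 0) * mm x))

include hε hP hf hj

theorem r_sd_rc (hm : 0 < m) (s : Bool) (L : List (Fin m)) : ∀ (x : Fin m) (L' : List (Fin m)),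
    sd k s = L ++ x :: L' → R δ (f s (rc k ε x 0))
      (f s (k.ctr + sh ε s) * (L.map mm).prod) := by
  have h : Eps (W.pts k) ε := hε.mono hP
  have hc : ∀ s, k.ctr + sh ε s ∉ P := fun s => sh_notMem hε (hP (ctr_mem k hm)) s
  have hl : ∀ x, rc k ε x 0 ∉ P ∧ lc k ε x 0 ∉ P := fun x =>
    ⟨rc_notMem hε hP (k.arm x).len_pos, lc_notMem hε hP (k.arm x).len_pos⟩
  induction L using List.reverseRecOn with
  | nil =>
    intro x L' hL
    simp only [List.map_nil, List.prod_nil, mul_one]
    exact (hf s _ _ (hc s) (hl x).1 (sd_fst h hL)).symm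
  | append_singleton L z ih =>
    intro x L' hL
    have hz : (k.arm z).up = s := mem_sd.1 (by rw [hL]; simp)
    have hL2 : sd k s = L ++ z :: (x :: L') := by rw [hL]; simp
    have e1 := ih z _ hL2
    have e2 := hf s _ _ (hl z).2 (hl x).1 (sd_mid h (x := z) (y := x) hL2)
    have e3 := hj z
    rw [hz] at e3
    refine e2.symm.trans (e3.trans ((e1.mul _).trans (R.of_eq ?_)))
    rw [List.map_append, List.prod_append]
    simp only [List.map_cons, List.map_nil, List.prod_cons, List.prod_nil, mul_one, mul_assoc]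

theorem r_sd_end (hm : 0 < m) (s : Bool) : R δ (f s (k.ctr + sh ε (!s)))
    (f s (k.ctr + sh ε s) * ((sd k s).map mm).prod) := by
  have h : Eps (W.pts k) ε := hε.mono hP
  have hc : ∀ s, k.ctr + sh ε s ∉ P := fun s => sh_notMem hε (hP (ctr_mem k hm)) s
  rcases List.eq_nil_or_concat (sd k s) with hL | ⟨L, x, hL⟩
  · rw [hL]
    simp only [List.map_nil, List.prod_nil, mul_one]
    exact (hf s _ _ (hc s) (hc (!s)) (sd_nil h hL)).symm
  · rw [List.concat_eq_append] at hL
    have hx : (k.arm x).up = s := mem_sd.1 (by rw [hL]; simp)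
    have e1 := r_sd_rc hε hP hf mm hj hm s L x [] hL
    have e2 := hf s _ _ (lc_notMem hε hP (k.arm x).len_pos) (hc (!s)) (sd_lst h hL)
    have e3 := hj x
    rw [hx] at e3
    refine e2.symm.trans (e3.trans ((e1.mul _).trans (R.of_eq ?_)))
    rw [hL, List.map_append, List.prod_append]
    simp only [List.map_cons, List.map_nil, List.prod_cons, List.prod_nil, mul_one, mul_assoc]

end

section

variable {P : Set ℝ} (hε : Eps P ε) (hP : W.pts k ⊆ P)
  (hf : ∀ s x y, x ∉ P → y ∉ P → NS (arcs k s) x y → R δ (f s x) (f s y))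
  {g : ℝ → G} (hg : ∀ s z, z ∉ P → f (!s) z = f s z * cross s (g z)) (hr : Reg k ε g)

include hε hP hf hg hr

theorem r_rc (x : Fin m) (i : ℕ) (hi : i < (k.arm x).len) :
    R δ (f ((k.arm x).page i) (rc k ε x i)) (f (k.arm x).up (rc k ε x 0) * ww k g x i) := by
  induction i with
  | zero => rw [W.page_zero]; exact R.of_eq (by simp [ww])
  | succ i ih =>
    have e := hf _ _ _ (rc_notMem hε hP (x := x) (i := i) (by omega))
      (rc_notMem hε hP (x := x) (i := i + 1) hi) (ns_right hε hP hi)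
    refine e.symm.trans ?_
    rw [W.page_succ, hg _ _ (rc_notMem hε hP (x := x) (i := i) (by omega)), ww, (hr x i hi).1,
      ← mul_assoc]
    exact (ih (by omega)).mul _

theorem r_lc (x : Fin m) (i : ℕ) (hi : i < (k.arm x).len) :
    R δ (f ((k.arm x).page i) (lc k ε x i)) (f (k.arm x).up (lc k ε x 0) * ww k g x i) := by
  induction i with
  | zero => rw [W.page_zero]; exact R.of_eq (by simp [ww])
  | succ i ih =>
    have e := hf _ _ _ (lc_notMem hε hP (x := x) (i := i) (by omega))
      (lc_notMem hε hP (x := x) (i := i + 1) hi) (ns_left hε hP hi)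
    refine e.symm.trans ?_
    rw [W.page_succ, hg _ _ (lc_notMem hε hP (x := x) (i := i) (by omega)), ww, (hr x i hi).2,
      ← mul_assoc]
    exact (ih (by omega)).mul _

theorem r_zero (x : Fin m) :
    R δ (f (k.arm x).up (lc k ε x 0)) (f (k.arm x).up (rc k ε x 0) * lpw k ε g x) := by
  obtain ⟨i, hi⟩ : ∃ i, i + 1 = (k.arm x).len := ⟨(k.arm x).len - 1, by
    have := (k.arm x).len_pos; omega⟩
  have nl : lc k ε x i ∉ P := lc_notMem hε hP (by omega)
  have nr : rc k ε x i ∉ P := rc_notMem hε hP (by omega)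
  have e1 := hf _ _ _ nl nr (ns_tip hε hP hi)
  have e2 := r_rc hε hP hf hg hr x i (by omega)
  have e3 := r_lc hε hP hf hg hr x i (by omega)
  have e4 : (k.arm x).len - 1 = i := by omega
  rw [hg _ _ nl, hg _ _ nr] at e1
  have e5 := (e3.mul (cross ((k.arm x).page i) (g (lc k ε x i)))).symm.trans
    (e1.trans (e2.mul (cross ((k.arm x).page i) (g (rc k ε x i)))))
  have e6 := e5.mul ((cross ((k.arm x).page i) (g (lc k ε x i)))⁻¹ * (ww k g x i)⁻¹)
  refine (R.of_eq ?_).trans (e6.trans (R.of_eq ?_))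
  · group
  · unfold lpw tipl
    rw [e4, cross_not]
    simp only [mul_assoc]

/-- The relation around the centre, up to a power of `δ`. -/
theorem r_rel (hm : 0 < m) (hc1 : g (k.ctr + ε) = g k.ctr) (hc2 : g (k.ctr - ε) = g k.ctr) :
    ∃ n : ℤ, (k.rot.map (lpc k ε g)).prod =
      (f true (k.ctr + ε))⁻¹ * δ ^ n * f true (k.ctr + ε) := by
  have hz := r_zero hε hP hf hg hr
  have e1 := r_sd_end hε hP hf (lpw k ε g) hz hm true
  have e2 := r_sd_end hε hP hf (lpw k ε g) hz hm false
  have n1 : k.ctr + ε ∉ P := by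
    have := sh_notMem hε (hP (ctr_mem k hm)) true
    simpa [sh] using this
  have n2 : k.ctr - ε ∉ P := by
    have := sh_notMem hε (hP (ctr_mem k hm)) false
    simpa [sh, ← sub_eq_add_neg] using this
  simp only [sh, Bool.not_true, Bool.not_false, if_true, Bool.false_eq_true, if_false,
    ← sub_eq_add_neg] at e1 e2
  have g1 := hg true _ n1
  have g2 := hg true _ n2
  simp only [Bool.not_true, cross, if_true, hc1, hc2] at g1 g2
  rw [g1, g2] at e2
  have e3 := e2.trans ((e1.mul (g k.ctr)).mul _)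
  obtain ⟨n, hn⟩ := e3
  refine ⟨-n, ?_⟩
  rw [rot_eq, List.map_append, List.prod_append,
    map_lpc_true k ε g (fun y hy => mem_sd.1 hy),
    map_lpc_false k ε g (L := sd k false) (fun y hy => mem_sd.1 hy)]
  have : ((sd k true).map (lpw k ε g)).prod * (g k.ctr * ((sd k false).map (lpw k ε g)).prod *
      (g k.ctr)⁻¹) = (f true (k.ctr + ε))⁻¹ * (δ ^ n)⁻¹ * (f true (k.ctr + ε) * g k.ctr) *
        (g k.ctr)⁻¹ := by
    rw [hn]
    group
  rw [this]
  group

end

end

end Vale.Agent.P040.H45W
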