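import Mathlib

/-!
# Walks on the spine which avoid a connected arc diagram

A net `N` is a finite set `P` of points of the spine together with arcs in the two pages,
connected. A walk of alternating arcs none of which crosses an arc of the net, with both ends in
one gap of the net, passes some gap back and forth.
-/

namespace Vale.Agent.P040.H45

open Finset

/-- the parity of `p < r` -/
noncomputable def uu (p r : ℝ) : ZMod 2 := if p < r then 1 else 0

theorem uu_self2 (a : ZMod 2) : a + a = 0 := CharTwo.add_self_eq_zero a

/-- A connected arc diagram. -/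
structure Net where
  P : Finset ℝ
  arc : Bool → ℝ → ℝ → Prop
  mem : ∀ π s t, arc π s t → s ∈ P ∧ t ∈ P
  conn : ∀ f : ℝ → ZMod 2, (∀ π s t, arc π s t → f s = f t) → ∀ r ∈ P, ∀ r' ∈ P, f r = f r'

namespace Net

variable (N : Net)

/-- `p` and `q` are in the same gap of the points of the net (on the spine closed up at infinity) -/
def SG (p q : ℝ) : Prop := ∃ c, ∀ r ∈ N.P, uu p r + uu q r = c

/-- an arc of page `π` with ends `p`, `q` interleaves no arc of the net -/
def NI (π : Bool) (p q : ℝ) : Prop := ∀ s t, N.arc π s t → uu p s + uu q s = uu p t + uu q t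

variable {N}

theorem SG.refl (p : ℝ) : N.SG p p := ⟨0, fun _ _ => uu_self2 _⟩

theorem SG.symm {p q : ℝ} (h : N.SG p q) : N.SG q p := by
  obtain ⟨c, h⟩ := h
  exact ⟨c, fun r hr => by rw [add_comm]; exact h r hr⟩

theorem SG.trans {p q r : ℝ} (h : N.SG p q) (h' : N.SG q r) : N.SG p r := by
  obtain ⟨c, h⟩ := h
  obtain ⟨d, h'⟩ := h'
  refine ⟨c + d, fun s hs => ?_⟩
  rw [← h s hs, ← h' s hs]
  have := uu_self2 (uu q s)
  linear_combination -this

/-- Points in pairwise different gaps: the number of those to the left is not of constant
parity. -/
theorem not_const {ι : Type*} (S : Finset ι) (x : ι → ℝ)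
    (hS : ∀ a ∈ S, ∀ b ∈ S, a ≠ b → ¬ N.SG (x a) (x b)) (h2 : 2 ≤ S.card) :
    ¬ ∃ c, ∀ r ∈ N.P, ∑ l ∈ S, uu (x l) r = c := by
  classical
  rintro ⟨c, hc⟩
  obtain ⟨a, ha, b, hb, hab⟩ := Finset.one_lt_card.1 h2
  -- one of the two is in a bounded gap
  have key : ∃ a ∈ S, (∃ r ∈ N.P, r ≤ x a) ∧ (∃ r ∈ N.P, x a < r) := by
    by_contra hcon
    push Not at hcon
    have hu : ∀ a ∈ S, ∃ c, ∀ r ∈ N.P, uu (x a) r = c := by
      intro a ha
      by_cases h : ∃ r ∈ N.P, r ≤ x a
      · refine ⟨0, fun r hr => ?_⟩
        unfold uu
        rw [if_neg (not_lt.2 (hcon a ha h r hr))]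
      · push Not at h
        refine ⟨1, fun r hr => ?_⟩
        unfold uu
        rw [if_pos (h r hr)]
    obtain ⟨c1, h1⟩ := hu a ha
    obtain ⟨c2, h2⟩ := hu b hb
    exact hS a ha b hb hab ⟨c1 + c2, fun r hr => by rw [h1 r hr, h2 r hr]⟩
  obtain ⟨a, ha, ⟨s, hs, hsa⟩, ⟨t, ht, hat⟩⟩ := key
  have hne1 : (N.P.filter (fun r => r ≤ x a)).Nonempty := ⟨s, by simp [hs, hsa]⟩
  have hne2 : (N.P.filter (fun r => x a < r)).Nonempty := ⟨t, by simp [ht, hat]⟩
  obtain ⟨r1, hr1⟩ : ∃ r1, r1 = (N.P.filter (fun r => r ≤ x a)).max' hne1 := ⟨_, rfl⟩
  obtain ⟨r2, hr2⟩ : ∃ r2, r2 = (N.P.filter (fun r => x a < r)).min' hne2 := ⟨_, rfl⟩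
  have m1 : r1 ∈ N.P ∧ r1 ≤ x a := by
    have := Finset.max'_mem _ hne1
    rw [← hr1] at this
    simpa using this
  have m2 : r2 ∈ N.P ∧ x a < r2 := by
    have := Finset.min'_mem _ hne2
    rw [← hr2] at this
    simpa using this
  have hcase : ∀ r ∈ N.P, r ≤ r1 ∨ r2 ≤ r := by
    intro r hr
    rcases le_or_gt r (x a) with h | h
    · left
      rw [hr1]
      exact Finset.le_max' _ _ (by simp [hr, h])
    · right
      rw [hr2]
      exact Finset.min'_le _ _ (by simp [hr, h])
  have e1 : ∑ l ∈ S, uu (x l) r2 = ∑ l ∈ S, uu (x l) r1 + 1 := by
    rw [← Finset.add_sum_erase S _ ha, ← Finset.add_sum_erase S (fun l => uu (x l) r1) ha]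
    have h1 : uu (x a) r2 = 1 := by unfold uu; rw [if_pos m2.2]
    have h2 : uu (x a) r1 = 0 := by unfold uu; rw [if_neg (not_lt.2 m1.2)]
    have h3 : ∑ l ∈ S.erase a, uu (x l) r2 = ∑ l ∈ S.erase a, uu (x l) r1 := by
      apply Finset.sum_congr rfl
      intro l hl
      rw [Finset.mem_erase] at hl
      by_contra hne
      have hlt : x l < r2 ∧ r1 ≤ x l := by
        unfold uu at hne
        by_cases h4 : x l < r2
        · refine ⟨h4, ?_⟩
          by_contra h5
          push Not at h5
          rw [if_pos h4, if_pos h5] at hne
          exact hne rfl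
        · have h5 : ¬ x l < r1 := fun h => h4 (lt_trans (lt_of_lt_of_le h m1.2) m2.2)
          rw [if_neg h4, if_neg h5] at hne
          exact absurd rfl hne
      apply hS a ha l hl.2 (Ne.symm hl.1)
      refine ⟨0, fun r hr => ?_⟩
      rcases hcase r hr with h | h
      · unfold uu
        rw [if_neg (not_lt.2 (h.trans m1.2)), if_neg (not_lt.2 (h.trans hlt.2)), add_zero]
      · unfold uu
        rw [if_pos (lt_of_lt_of_le m2.2 h), if_pos (lt_of_lt_of_le hlt.1 h)]
        exact uu_self2 1
    rw [h1, h2, h3]
    ring
  rw [hc r1 m1.1, hc r2 m2.1] at e1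
  have : (1 : ZMod 2) = 0 := by linear_combination -e1
  exact absurd this (by decide)

theorem page_add (π : Bool) (i l : ℕ) :
    (if Even l then (if Even i then π else !π) else !(if Even i then π else !π)) =
      if Even (i + l) then π else !π := by
  have h := Nat.even_add (m := i) (n := l)
  by_cases h1 : Even i
  · by_cases h2 : Even l
    · rw [if_pos h2, if_pos h1, if_pos (h.2 (by tauto))]
    · rw [if_neg h2, if_pos h1, if_neg (fun h3 => h2 ((h.1 h3).1 h1))]
  · by_cases h2 : Even l
    · rw [if_pos h2, if_neg h1, if_neg (fun h3 => h1 ((h.1 h3).2 h2))]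
    · rw [if_neg h2, if_neg h1, if_pos (h.2 (by tauto)), Bool.not_not]

/-- **Backtracking.** -/
theorem backtrack (x : ℕ → ℝ) (π : Bool) {n : ℕ} (hn : 1 ≤ n)
    (h : ∀ l < n, N.NI (if Even l then π else !π) (x l) (x (l + 1))) (hSG : N.SG (x 0) (x n)) :
    ∃ l < n, N.SG (x l) (x (l + 1)) := by
  classical
  induction n using Nat.strong_induction_on generalizing x π with
  | _ n ih =>
    by_cases hsub : ∃ i j, i < j ∧ j ≤ n ∧ j - i < n ∧ N.SG (x i) (x j)
    · obtain ⟨i, j, hij, hjn, hlt, hs⟩ := hsub
      obtain ⟨l, hl, hs'⟩ := ih (j - i) hlt (fun l => x (i + l))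
        (if Even i then π else !π) (by omega)
        (by
          intro l hl
          have h0 := h (i + l) (by omega)
          rw [show i + (l + 1) = i + l + 1 by omega, page_add]
          exact h0)
        (by
          show N.SG (x (i + 0)) (x (i + (j - i)))
          rw [show i + (j - i) = j by omega]
          exact hs)
      exact ⟨i + l, by omega, hs'⟩
    · push Not at hsub
      rcases Nat.lt_or_ge n 2 with hn2 | hn2
      · have : n = 1 := by omega
        subst this
        exact ⟨0, by omega, hSG⟩
      · exfalso
        obtain ⟨c, hc⟩ := hSG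
        rcases Nat.even_or_odd' n with ⟨M, hM | hM⟩
        · -- even
          have hF0 : ∀ s t, N.arc π s t → ∑ l ∈ range n, uu (x l) s = ∑ l ∈ range n, uu (x l) t := by
            intro s t hst
            have hsum : ∀ r, ∑ l ∈ range n, uu (x l) r =
                ∑ i ∈ range M, (uu (x (2 * i)) r + uu (x (2 * i + 1)) r) := by
              intro r
              rw [hM]
              clear hM h hsub hn ih hc hn2 hst
              induction M with
              | zero => simp
              | succ M ihM =>
                rw [Finset.sum_range_succ, ← ihM, show 2 * (M + 1) = 2 * M + 1 + 1 by ring,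
                  Finset.sum_range_succ, Finset.sum_range_succ]
                ring
            rw [hsum, hsum]
            apply Finset.sum_congr rfl
            intro i hi
            rw [Finset.mem_range] at hi
            have := h (2 * i) (by omega)
            rw [if_pos (by simp)] at this
            exact this s t hst
          have hF1 : ∀ s t, N.arc (!π) s t →
              ∑ l ∈ range n, uu (x l) s = ∑ l ∈ range n, uu (x l) t := by
            intro s t hst
            have hsum : ∀ r, ∑ l ∈ range n, uu (x l) r + (uu (x 0) r + uu (x n) r) =
                ∑ i ∈ range M, (uu (x (2 * i + 1)) r + uu (x (2 * i + 1 + 1)) r) := by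
              intro r
              rw [hM]
              clear hM h hsub hn ih hc hn2 hst
              induction M with
              | zero =>
                simp only [mul_zero, range_zero, sum_empty, zero_add]
                exact uu_self2 _
              | succ M ihM =>
                rw [Finset.sum_range_succ, ← ihM, show 2 * (M + 1) = 2 * M + 1 + 1 by ring,
                  Finset.sum_range_succ, Finset.sum_range_succ]
                have := uu_self2 (uu (x (2 * M)) r)
                linear_combination this - this
            have h1 := hsum s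
            have h2 := hsum t
            rw [hc s (N.mem _ _ _ hst).1] at h1
            rw [hc t (N.mem _ _ _ hst).2] at h2
            have h3 : ∑ i ∈ range M, (uu (x (2 * i + 1)) s + uu (x (2 * i + 1 + 1)) s) =
                ∑ i ∈ range M, (uu (x (2 * i + 1)) t + uu (x (2 * i + 1 + 1)) t) := by
              apply Finset.sum_congr rfl
              intro i hi
              rw [Finset.mem_range] at hi
              have := h (2 * i + 1) (by omega)
              rw [if_neg (by simp)] at this
              exact this s t hst
            rw [← h1, ← h2] at h3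
            exact add_right_cancel h3
          have hconst : ∃ c, ∀ r ∈ N.P, ∑ l ∈ range n, uu (x l) r = c := by
            by_cases hne : ∃ r, r ∈ N.P
            · obtain ⟨r0, hr0⟩ := hne
              refine ⟨_, fun r hr => N.conn (fun r => ∑ l ∈ range n, uu (x l) r) ?_ r hr r0 hr0⟩
              intro π' s t hst
              by_cases hpp : π' = π
              · subst hpp; exact hF0 s t hst
              · have : π' = !π := by cases π <;> cases π' <;> simp_all
                subst this; exact hF1 s t hst
            · exact ⟨0, fun r hr => absurd ⟨r, hr⟩ hne⟩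
          refine not_const (range n) x ?_ (by simpa using hn2) hconst
          intro a ha b hb hab hs
          rw [Finset.mem_range] at ha hb
          rcases lt_or_gt_of_ne hab with h1 | h1
          · exact hsub a b h1 (by omega) (by omega) hs
          · exact hsub b a h1 (by omega) (by omega) hs.symm
        · -- odd
          have hM1 : 1 ≤ M := by omega
          have hF1 : ∀ s t, N.arc (!π) s t →
              ∑ l ∈ range (2 * M), uu (x (l + 1)) s = ∑ l ∈ range (2 * M), uu (x (l + 1)) t := by
            intro s t hst
            have hsum : ∀ r, ∑ l ∈ range (2 * M), uu (x (l + 1)) r =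
                ∑ i ∈ range M, (uu (x (2 * i + 1)) r + uu (x (2 * i + 1 + 1)) r) := by
              intro r
              clear hM h hsub hn ih hc hn2 hst hM1
              induction M with
              | zero => simp
              | succ M ihM =>
                rw [Finset.sum_range_succ, ← ihM, show 2 * (M + 1) = 2 * M + 1 + 1 by ring,
                  Finset.sum_range_succ, Finset.sum_range_succ]
                ring
            rw [hsum, hsum]
            apply Finset.sum_congr rfl
            intro i hi
            rw [Finset.mem_range] at hi
            have := h (2 * i + 1) (by omega)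
            rw [if_neg (by simp)] at this
            exact this s t hst
          have hF0 : ∀ s t, N.arc π s t →
              ∑ l ∈ range (2 * M), uu (x (l + 1)) s = ∑ l ∈ range (2 * M), uu (x (l + 1)) t := by
            intro s t hst
            have hsum : ∀ r, ∑ l ∈ range (2 * M), uu (x (l + 1)) r + (uu (x 0) r + uu (x n) r) =
                ∑ i ∈ range (M + 1), (uu (x (2 * i)) r + uu (x (2 * i + 1)) r) := by
              intro r
              rw [hM]
              clear hM h hsub hn ih hc hn2 hst hM1 hF1
              induction M with
              | zero => simp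
              | succ M ihM =>
                rw [Finset.sum_range_succ, ← ihM, show 2 * (M + 1) = 2 * M + 1 + 1 by ring,
                  Finset.sum_range_succ, Finset.sum_range_succ]
                have := uu_self2 (uu (x (2 * M + 1)) r)
                linear_combination this - this
            have h1 := hsum s
            have h2 := hsum t
            rw [hc s (N.mem _ _ _ hst).1] at h1
            rw [hc t (N.mem _ _ _ hst).2] at h2
            have h3 : ∑ i ∈ range (M + 1), (uu (x (2 * i)) s + uu (x (2 * i + 1)) s) =
                ∑ i ∈ range (M + 1), (uu (x (2 * i)) t + uu (x (2 * i + 1)) t) := by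
              apply Finset.sum_congr rfl
              intro i hi
              rw [Finset.mem_range] at hi
              have := h (2 * i) (by omega)
              rw [if_pos (by simp)] at this
              exact this s t hst
            rw [← h1, ← h2] at h3
            exact add_right_cancel h3
          have hconst : ∃ c, ∀ r ∈ N.P, ∑ l ∈ range (2 * M), uu (x (l + 1)) r = c := by
            by_cases hne : ∃ r, r ∈ N.P
            · obtain ⟨r0, hr0⟩ := hne
              refine ⟨_, fun r hr => N.conn (fun r => ∑ l ∈ range (2 * M), uu (x (l + 1)) r)
                ?_ r hr r0 hr0⟩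
              intro π' s t hst
              by_cases hpp : π' = π
              · subst hpp; exact hF0 s t hst
              · have : π' = !π := by cases π <;> cases π' <;> simp_all
                subst this; exact hF1 s t hst
            · exact ⟨0, fun r hr => absurd ⟨r, hr⟩ hne⟩
          refine not_const (range (2 * M)) (fun l => x (l + 1)) ?_
            (by rw [Finset.card_range]; omega) hconst
          intro a ha b hb hab hs
          rw [Finset.mem_range] at ha hb
          rcases lt_or_gt_of_ne hab with h1 | h1
          · exact hsub (a + 1) (b + 1) (by omega) (by omega) (by omega) hs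
          · exact hsub (b + 1) (a + 1) (by omega) (by omega) (by omega) hs.symm

end Net

end Vale.Agent.P040.H45
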