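import Vale.Agent.P040.H45.Hol

/-!
# `Z` is constant off the leaves and the centre; the words of paths and their lengths
-/

set_option autoImplicit false

namespace Vale.Agent.P040.H45

open Finset H177 Bp Topo

theorem exists_nears {P : Set ℝ} (hP : P.Finite) (r : ℝ) : ∃ a b, a < r ∧ r < b ∧ Near P a r ∧
    Near P b r ∧ (∀ z ∈ P, z < r → z < a) ∧ (∀ z ∈ P, r < z → b < z) := by
  obtain ⟨a, b, h1, h2, h3, h4⟩ := exists_near hP r
  refine ⟨a, b, h1, h2, ⟨?_, ?_⟩, ⟨?_, ?_⟩, h3, h4⟩
  · intro ha
    exact lt_irrefl _ (h3 a ha h1)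
  · intro z hz _
    exact ⟨fun h => h.trans h1, h3 z hz⟩
  · intro hb
    exact lt_irrefl _ (h4 b hb h2)
  · intro z hz hzr
    refine ⟨fun h => ?_, fun h => h.trans h2⟩
    by_contra h5
    exact lt_asymm h (h4 z hz (lt_of_le_of_ne (not_lt.1 h5) (Ne.symm hzr)))

theorem Near.mono {P Q : Set ℝ} {q r : ℝ} (h : Near Q q r) (hPQ : P ⊆ Q) : Near P q r :=
  ⟨fun h' => h.1 (hPQ h'), fun z hz hzr => h.2 z (hPQ hz) hzr⟩

variable {m : ℕ} {leaf : Fin m → ℝ}

/-- regular points: neither the centre nor a leaf -/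
theorem regular (b : SStar leaf) {r : ℝ} (hr : r ∈ pts b) (h1 : r ≠ b.ctr) (h2 : ∀ x, r ≠ leaf x) :
    ∃ y j, j + 1 < (b.arm y).len ∧ r = (b.arm y).p (j + 1) := by
  obtain ⟨y, i, hi, rfl⟩ := hr
  rcases Nat.eq_zero_or_pos i with h0 | h0
  · subst h0
    exact absurd (b.arm_zero y) h1
  · obtain ⟨j, rfl⟩ : ∃ j, i = j + 1 := ⟨i - 1, by omega⟩
    refine ⟨y, j, ?_, rfl⟩
    rcases Nat.lt_or_ge (j + 1) (b.arm y).len with h3 | h3
    · exact h3
    · exfalso
      apply h2 y
      rw [← b.arm_last y]
      congr 1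
      omega

theorem Z_lt (b : SStar leaf) {p q : ℝ} (hpq : p < q) (hp : p ∉ pts b) (hq : q ∉ pts b)
    (h1 : ∀ x, ¬ (p < leaf x ∧ leaf x < q)) (h2 : ¬ (p < b.ctr ∧ b.ctr < q)) :
    Z b p = Z b q := by
  classical
  have hfin := finite_pts b
  obtain ⟨n, hn⟩ : ∃ n, (pts b ∩ Set.Ioo p q).ncard = n := ⟨_, rfl⟩
  induction n using Nat.strong_induction_on generalizing p q with
  | _ n ih =>
    by_cases hne : (pts b ∩ Set.Ioo p q).Nonempty
    · obtain ⟨r, hr, hpr, hrq⟩ := hne
      obtain ⟨y, j, hj, rfl⟩ := regular b hr (fun h => h2 (h ▸ ⟨hpr, hrq⟩))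
        (fun x h => h1 x (h ▸ ⟨hpr, hrq⟩))
      obtain ⟨l, t, hl, ht, nl, nt, hl', ht'⟩ := exists_nears (P := pts b ∪ {p, q})
        (hfin.union (by simp)) ((b.arm y).p (j + 1))
      have hpl : p < l := hl' p (by simp) hpr
      have htq : t < q := ht' q (by simp) hrq
      have nl' : Near (pts b) l _ := nl.mono Set.subset_union_left
      have nt' : Near (pts b) t _ := nt.mono Set.subset_union_left
      have e1 : Z b p = Z b l := by
        refine ih _ ?_ hpl hp nl'.1 (fun x h => h1 x ⟨h.1, h.2.trans (hl.trans hrq)⟩)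
          (fun h => h2 ⟨h.1, h.2.trans (hl.trans hrq)⟩) rfl
        rw [← hn]
        refine Set.ncard_lt_ncard ?_ (hfin.inter_of_left _)
        refine ⟨fun z hz => ⟨hz.1, hz.2.1, hz.2.2.trans (hl.trans hrq)⟩, fun hsub => ?_⟩
        have := hsub ⟨hr, hpr, hrq⟩
        exact lt_asymm this.2.2 hl
      have e2 : Z b t = Z b q := by
        refine ih _ ?_ htq nt'.1 hq (fun x h => h1 x ⟨(hpr.trans ht).trans h.1, h.2⟩)
          (fun h => h2 ⟨(hpr.trans ht).trans h.1, h.2⟩) rfl
        rw [← hn]
        refine Set.ncard_lt_ncard ?_ (hfin.inter_of_left _)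
        refine ⟨fun z hz => ⟨hz.1, (hpr.trans ht).trans hz.2.1, hz.2.2⟩, fun hsub => ?_⟩
        have := hsub ⟨hr, hpr, hrq⟩
        exact lt_asymm this.2.1 ht
      rw [e1, ← e2, Z_reg b y hj nl' nt' hl ht]
    · have hnear : Near (pts b) q p := by
        refine ⟨hq, fun z hz _ => ⟨fun h => ?_, fun h => h.trans hpq⟩⟩
        by_contra h3
        have h4 : p < z := lt_of_le_of_ne (not_lt.1 h3) (fun h5 => hp (h5 ▸ hz))
        exact hne ⟨z, hz, h4, h⟩
      unfold Z
      rw [H_near b true hnear hp, H_near b false hnear hp]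

/-- **`Z` is constant on the gaps of the leaves and the centre.** -/
theorem Z_gap (b : SStar leaf) {p q : ℝ} (hp : p ∉ pts b) (hq : q ∉ pts b)
    (h1 : ∀ x, (leaf x < p ↔ leaf x < q)) (h2 : (b.ctr < p ↔ b.ctr < q)) : Z b p = Z b q := by
  rcases lt_trichotomy p q with h | h | h
  · exact Z_lt b h hp hq (fun x hx => lt_asymm hx.1 ((h1 x).2 hx.2))
      (fun hx => lt_asymm hx.1 (h2.2 hx.2))
  · rw [h]
  · exact (Z_lt b h hq hp (fun x hx => lt_asymm hx.1 ((h1 x).1 hx.2))
      (fun hx => lt_asymm hx.1 (h2.1 hx.2))).symm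

/-- The two ends of the spine. -/
theorem Z_inf (b : SStar leaf) {p q : ℝ} (hp : p ∉ pts b) (hq : q ∉ pts b)
    (h1 : ∀ x, p < leaf x ∧ leaf x < q) (h2 : p < b.ctr ∧ b.ctr < q) : Z b p = Z b q := by
  obtain ⟨l, hl⟩ := (finite_pts b).bddBelow
  obtain ⟨u, hu⟩ := (finite_pts b).bddAbove
  have hl' : ∀ z ∈ pts b, min l p - 1 < z := fun z hz => by
    have := hl hz
    have := min_le_left l p
    linarith
  have hu' : ∀ z ∈ pts b, z < max u q + 1 := fun z hz => by
    have := hu hz
    have := le_max_left u q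
    linarith
  have m1 : min l p - 1 ∉ pts b := fun h => lt_irrefl _ (hl' _ h)
  have m2 : max u q + 1 ∉ pts b := fun h => lt_irrefl _ (hu' _ h)
  have e1 : Z b (min l p - 1) = Z b p := by
    have := min_le_right l p
    apply Z_gap b m1 hp
    · intro x
      exact ⟨fun h => absurd (h1 x).1 (not_lt.2 (by linarith)),
        fun h => absurd h (not_lt.2 (h1 x).1.le)⟩
    · exact ⟨fun h => absurd h2.1 (not_lt.2 (by linarith)),
        fun h => absurd h (not_lt.2 h2.1.le)⟩
  have e2 : Z b q = Z b (max u q + 1) := by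
    have := le_max_right u q
    apply Z_gap b hq m2
    · intro x
      exact ⟨fun h => by linarith, fun h => (h1 x).2⟩
    · exact ⟨fun h => by linarith, fun h => h2.2⟩
  have e3 : ∀ s, H b s (min l p - 1) = H b s (max u q + 1) := by
    intro s
    apply H_eq
    intro i hi
    rw [mem_pieces] at hi
    have a1 := mem_pts b i.1 (show i.2 ≤ _ by omega)
    have a2 := mem_pts b i.1 (show i.2 + 1 ≤ _ by omega)
    have f1 : ¬ Ins (ends b i) (min l p - 1) := by
      unfold Ins ends
      rintro ⟨h3, -⟩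
      rcases min_choice ((b.arm i.1).p i.2) ((b.arm i.1).p (i.2 + 1)) with h | h
      · simp only [h] at h3; exact lt_asymm h3 (hl' _ a1)
      · simp only [h] at h3; exact lt_asymm h3 (hl' _ a2)
    have f2 : ¬ Ins (ends b i) (max u q + 1) := by
      unfold Ins ends
      rintro ⟨-, h3⟩
      rcases max_choice ((b.arm i.1).p i.2) ((b.arm i.1).p (i.2 + 1)) with h | h
      · simp only [h] at h3; exact lt_asymm h3 (hu' _ a1)
      · simp only [h] at h3; exact lt_asymm h3 (hu' _ a2)
    exact ⟨fun h => absurd h f1, fun h => absurd h f2⟩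
  rw [← e1, e2]
  unfold Z
  rw [e3, e3]

/-- At a leaf only the page of arrival changes. -/
theorem H_leaf_other (b : SStar leaf) (y : Fin m) {s : Bool}
    (hs : (b.arm y).page ((b.arm y).len - 1) ≠ s) {q : ℝ} (hq : Near (pts b) q (leaf y)) :
    H b s q = H b s (leaf y) := by
  apply H_eq
  rintro ⟨x, i⟩ hi
  rw [mem_pieces] at hi
  simp only at hi
  have hl := b.arm_last y
  refine hq.ins (mem_pts b x (by omega)) (mem_pts b x (by omega)) ?_ ?_
  · intro h
    simp only [ends] at h
    rw [← hl] at h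
    have := (b.arm y).len_pos
    rcases b.inj x i y _ (by omega) le_rfl h with ⟨h3, h4⟩ | ⟨-, h4⟩
    · subst h3; omega
    · omega
  · intro h
    simp only [ends] at h
    rw [← hl] at h
    have := (b.arm y).len_pos
    rcases b.inj x (i + 1) y _ (by omega) le_rfl h with ⟨h3, h4⟩ | ⟨-, h4⟩
    · subst h3
      apply hs
      rw [← hi.2]
      congr 1
      omega
    · omega

/-- At a leaf, page of arrival: the value at the leaf is the value outside of the arriving
piece. -/
theorem H_leaf_same (b : SStar leaf) (y : Fin m) {s : Bool}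
    (hs : (b.arm y).page ((b.arm y).len - 1) = s) {q : ℝ} (hq : Near (pts b) q (leaf y))
    (hqi : ¬ Ins (ends b (y, (b.arm y).len - 1)) q) :
    H b s q = H b s (leaf y) := by
  apply H_eq
  rintro ⟨x, i⟩ hi
  rw [mem_pieces] at hi
  simp only at hi
  have hl := b.arm_last y
  have hlp := (b.arm y).len_pos
  by_cases hxi : (x, i) = (y, (b.arm y).len - 1)
  · rw [hxi]
    refine ⟨fun h => absurd h hqi, fun h => absurd h ?_⟩
    unfold ends
    simp only
    rw [show (b.arm y).len - 1 + 1 = (b.arm y).len by omega, hl, ins_comm]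
    exact not_ins_end _ _
  refine hq.ins (mem_pts b x (by omega)) (mem_pts b x (by omega)) ?_ ?_
  · intro h
    simp only [ends] at h
    rw [← hl] at h
    rcases b.inj x i y _ (by omega) le_rfl h with ⟨h3, h4⟩ | ⟨-, h4⟩
    · subst h3; omega
    · omega
  · intro h
    simp only [ends] at h
    rw [← hl] at h
    rcases b.inj x (i + 1) y _ (by omega) le_rfl h with ⟨h3, h4⟩ | ⟨-, h4⟩
    · apply hxi
      subst h3
      rw [← h4]
      rfl
    · omega

/-- The values of `H` next to a leaf differ from the value at the leaf by a power. -/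
theorem H_leaf (b : SStar leaf) (y : Fin m) (s : Bool) {q : ℝ} (hq : Near (pts b) q (leaf y))
    (hqr : q ≠ leaf y) : ∃ e : ℤ, H b s q = H b s (leaf y) * (FreeGroup.of y) ^ e := by
  by_cases hs : (b.arm y).page ((b.arm y).len - 1) = s
  · by_cases hqi : Ins (ends b (y, (b.arm y).len - 1)) q
    · have hlp := (b.arm y).len_pos
      have hlen : (b.arm y).len - 1 + 1 = (b.arm y).len := by omega
      have hlast : (b.arm y).p ((b.arm y).len - 1 + 1) = leaf y := by rw [hlen, b.arm_last]
      have hpc : (y, (b.arm y).len - 1) ∈ pieces b s := by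
        rw [mem_pieces]
        exact ⟨by show (b.arm y).len - 1 < (b.arm y).len; omega, hs⟩
      have hl := b.arm_last y
      have h1 := H_in b s hpc (p := q) (q := leaf y) hqi (by
          unfold ends
          simp only
          rw [hlast, ins_comm]
          exact not_ins_end _ _) (by
          rintro ⟨x, i⟩ hi hne
          rw [mem_pieces] at hi
          simp only at hi
          refine hq.ins (mem_pts b x (by omega)) (mem_pts b x (by omega)) ?_ ?_
          · intro h
            simp only [ends] at h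
            rw [← hl] at h
            rcases b.inj x i y _ (by omega) le_rfl h with ⟨h3, h4⟩ | ⟨-, h4⟩
            · subst h3; omega
            · omega
          · intro h
            simp only [ends] at h
            rw [← hl] at h
            rcases b.inj x (i + 1) y _ (by omega) le_rfl h with ⟨h3, h4⟩ | ⟨-, h4⟩
            · apply hne
              subst h3
              rw [← h4]
              rfl
            · omega)
      rw [h1]
      unfold lab
      split_ifs
      · exact ⟨1, by simp⟩
      · exact ⟨-1, by simp⟩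
    · exact ⟨0, by rw [H_leaf_same b y hs hq hqi]; simp⟩
  · exact ⟨0, by rw [H_leaf_other b y hs hq]; simp⟩

/-- `Z` on the two sides of a leaf. -/
theorem Z_leaf (b : SStar leaf) (y : Fin m) {q q' : ℝ} (hq : Near (pts b) q (leaf y))
    (hq' : Near (pts b) q' (leaf y)) (h1 : q < leaf y) (h2 : leaf y < q') :
    Z b q' = H b true q * (FreeGroup.of y)⁻¹ * (H b false q)⁻¹ := by
  have hlp := (b.arm y).len_pos
  have hlen : (b.arm y).len - 1 + 1 = (b.arm y).len := by omega
  have hlast : (b.arm y).p ((b.arm y).len - 1 + 1) = leaf y := by rw [hlen, b.arm_last]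
  cases hs : (b.arm y).page ((b.arm y).len - 1)
  · have e1 := H_arr b y (j := (b.arm y).len - 1) (by omega) hs (by rw [hlast]; exact hq)
      (by rw [hlast]; exact hq') (by rw [hlast]; exact h1) (by rw [hlast]; exact h2)
    have e2 := H_leaf_other b y (s := true) (by rw [hs]; decide) hq
    have e3 := H_leaf_other b y (s := true) (by rw [hs]; decide) hq'
    unfold Z
    rw [e3, ← e2, e1]
    unfold jmp
    rw [show (b.arm y).len - 1 + 1 - 1 = (b.arm y).len - 1 by omega, hs]
    simp only [Bool.false_eq_true, if_false]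
    group
  · have e1 := H_arr b y (j := (b.arm y).len - 1) (by omega) hs (by rw [hlast]; exact hq)
      (by rw [hlast]; exact hq') (by rw [hlast]; exact h1) (by rw [hlast]; exact h2)
    have e2 := H_leaf_other b y (s := false) (by rw [hs]; decide) hq
    have e3 := H_leaf_other b y (s := false) (by rw [hs]; decide) hq'
    unfold Z
    rw [e3, ← e2, e1]
    unfold jmp
    rw [show (b.arm y).len - 1 + 1 - 1 = (b.arm y).len - 1 by omega, hs]
    simp only [if_true]

end Vale.Agent.P040.H45
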